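import Crest.Agent.R097.F6Fin_Mg
import Crest.Agent.R097.RegCone
import Crest.Agent.R097.DimRed
import Crest.Agent.R097.Hstep_Mg
import Crest.Agent.R097.RFld0
import Crest.Agent.R097.Red6
import Crest.Agent.R097.RedKato2
import Crest.Agent.R097.RReg
import Crest.Agent.R097.RApri3_Mg
import Crest.Agent.R097.RedKato1_Mg
import Crest.Agent.R097.RCert
import Crest.Agent.R097.PJBlk
import Crest.Agent.R097C4.N4pp
import Crest.Agent.R097C4.N4pm
import Crest.Agent.R097C4.N4mp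
import Crest.Agent.R097C4.N4mm
import Crest.Agent.R097.V4S
import Crest.Agent.R097.SC5
import Crest.Agent.R097.V5S0
import Crest.Agent.R097.V5S1
import Crest.Agent.R097.V5S2
import Crest.Agent.R097.KA4
import Crest.Agent.R097C5.N5pp
import Crest.Agent.R097C5.N5pm
import Crest.Agent.R097C5.N5mp
import Crest.Agent.R097C5.N5mm

-- ▼ part R097/F5Fin
section

/-!
# Row 97: F6, flat implies regular (final form)
-/

set_option autoImplicit false
open MeasureTheory Metric Set Filter Topology InnerProductSpace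
open scoped RealInnerProductSpace NNReal ENNReal Gradient Laplacian

namespace Crest.Agent.R097

variable {d : ℕ}

theorem f5_final (hd : 1 ≤ d) : F5Stmt d :=
  F5 (f3_final hd) (Hm.harm_jets' d) (fun _ _ hu x0 _ hr => hu.blow x0 hr)

/-- **flat implies regular** -/
theorem f6_final (hd : 1 ≤ d) : F6Stmt d := f6_of_f5 (f5_final hd)

end Crest.Agent.R097
end

-- ▼ part R097/Final
section

/-!
# Row 97: final assembly (linker: helper169)

`S0128_of_red`: the statement of S0128 from the four reductions `RedStmt 3`, …, `RedStmt 6`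
(stability certificates in the dimensions `n = 2, 3, 4, 5`).
-/

set_option autoImplicit false
open MeasureTheory Metric Set Filter Topology
open scoped NNReal RealInnerProductSpace Gradient ContDiff Laplacian
open Crest.AnalysisR.PDE.OnePhase

namespace Crest.Agent.R097

/-- the induction step in all dimensions from the reductions -/
theorem hstep_of_red (h3 : RedStmt 3) (h4 : RedStmt 4) (h5 : RedStmt 5) (h6 : RedStmt 6) :
    ∀ d : ℕ, 2 ≤ d → d ≤ 5 → Cls d → Cls (d + 1) := by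
  intro d hd2 hd5 hc
  have hr : RedStmt (d + 1) := by
    obtain rfl | rfl | rfl | rfl : d = 2 ∨ d = 3 ∨ d = 4 ∨ d = 5 := by omega
    · exact h3
    · exact h4
    · exact h5
    · exact h6
  exact cls_succ (by omega) (f6_final (by omega)) hr hc

/-- **S0128 from the four reductions** -/
theorem S0128_of_red (h3 : RedStmt 3) (h4 : RedStmt 4) (h5 : RedStmt 5) (h6 : RedStmt 6)
    (d : ℕ) (hd1 : 1 ≤ d) (hd6 : d ≤ 6)
    (u : EuclideanSpace ℝ (Fin d) → ℝ) (G : EuclideanSpace ℝ (Fin d) → EuclideanSpace ℝ (Fin d))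
    (hmin : IsGlobalMinimizer u G) (hhom : IsOneHomogeneous u)
    (hne : ¬ (u =ᵐ[volume] 0)) :
    ∃ e : EuclideanSpace ℝ (Fin d), ‖e‖ = 1 ∧ u =ᵐ[volume] fun x => max (inner ℝ x e) 0 :=
  final (hstep_of_red h3 h4 h5 h6) d hd1 hd6 u G hmin hhom hne

end Crest.Agent.R097
end

-- ▼ part R097/REnergy
section

/-!
# Row 97: the fields `wbd` and `energy` of `RedHyp` from the growth condition of a certificate
-/

set_option autoImplicit false
set_option synthInstance.maxHeartbeats 400000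
open MeasureTheory Metric Set Filter Topology InnerProductSpace
open scoped RealInnerProductSpace NNReal ENNReal Gradient Laplacian

namespace Crest.Agent.R097

namespace REn

variable {d : ℕ}

lemma abs_le_hs (A : Bil d) (i j : Fin d) : |A (bv i) (bv j)| ≤ Real.sqrt (hs2 A) := by
  apply Real.abs_le_sqrt
  unfold hs2
  calc (A (bv i) (bv j)) ^ 2 ≤ ∑ j, (A (bv i) (bv j)) ^ 2 :=
        Finset.single_le_sum (f := fun j => (A (bv i) (bv j)) ^ 2) (fun _ _ => sq_nonneg _)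
          (Finset.mem_univ j)
    _ ≤ _ := Finset.single_le_sum (f := fun i => ∑ j, (A (bv i) (bv j)) ^ 2)
          (fun _ _ => Finset.sum_nonneg fun _ _ => sq_nonneg _) (Finset.mem_univ i)

lemma bil_le (A : Bil d) (v w : E d) :
    |A v w| ≤ (d : ℝ) * d * Real.sqrt (hs2 A) * ‖v‖ * ‖w‖ := by
  have hv : A v w = ∑ i, ∑ j, v i * (w j * A (bv i) (bv j)) := by
    conv_lhs => rw [← sum_bv v]
    rw [map_sum, sum_apply]
    refine Finset.sum_congr rfl fun i _ => ?_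
    rw [map_smul, smul_apply, smul_eq_mul]
    conv_lhs => rw [← sum_bv w]
    rw [map_sum, Finset.mul_sum]
    refine Finset.sum_congr rfl fun j _ => ?_
    rw [map_smul, smul_eq_mul]
  rw [hv]
  have hs := Real.sqrt_nonneg (hs2 A)
  have hn : ∀ (z : E d) (i : Fin d), |z i| ≤ ‖z‖ := fun z i => by
    have := PiLp.norm_apply_le z i
    simpa using this
  calc |∑ i, ∑ j, v i * (w j * A (bv i) (bv j))|
      ≤ ∑ i, ∑ j, |v i * (w j * A (bv i) (bv j))| :=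
        (Finset.abs_sum_le_sum_abs _ _).trans
          (Finset.sum_le_sum fun i _ => Finset.abs_sum_le_sum_abs _ _)
    _ ≤ ∑ _i : Fin d, ∑ _j : Fin d, ‖v‖ * (‖w‖ * Real.sqrt (hs2 A)) := by
        refine Finset.sum_le_sum fun i _ => Finset.sum_le_sum fun j _ => ?_
        rw [abs_mul, abs_mul]
        have h1 := hn v i
        have h2 := hn w j
        have h3 := abs_le_hs A i j
        gcongr
    _ = _ := by
        simp only [Finset.sum_const, Finset.card_univ, Fintype.card_fin, nsmul_eq_mul]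
        ring


lemma norm_sum_bv_le {f : Fin d → ℝ} {c : ℝ} (h : ∀ i, |f i| ≤ c) :
    ‖∑ i, f i • (bv i : E d)‖ ≤ d * c := by
  calc ‖∑ i, f i • (bv i : E d)‖ ≤ ∑ i, ‖f i • (bv i : E d)‖ := norm_sum_le _ _
    _ ≤ ∑ _i : Fin d, c := by
        refine Finset.sum_le_sum fun i _ => ?_
        rw [norm_smul, norm_bv, mul_one, Real.norm_eq_abs]
        exact h i
    _ = d * c := by simp

lemma norm_act_le (A : Bil d) (v : E d) :
    ‖act A v‖ ≤ (d : ℝ) * (d * d * Real.sqrt (hs2 A) * ‖v‖) := by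
  unfold act
  refine norm_sum_bv_le fun i => ?_
  have := bil_le A v (bv i)
  rwa [norm_bv, mul_one] at this

lemma norm_TM_le (A : Bil d) (B : Tri d) :
    ‖TM A B‖ ≤ (d : ℝ) * (d * d * (‖B‖ * Real.sqrt (hs2 A))) := by
  unfold TM
  refine norm_sum_bv_le fun k => ?_
  calc |∑ i, ∑ j, B (bv k) (bv i) (bv j) * A (bv i) (bv j)|
      ≤ ∑ i, ∑ j, |B (bv k) (bv i) (bv j) * A (bv i) (bv j)| :=
        (Finset.abs_sum_le_sum_abs _ _).trans
          (Finset.sum_le_sum fun i _ => Finset.abs_sum_le_sum_abs _ _)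
    _ ≤ ∑ _i : Fin d, ∑ _j : Fin d, ‖B‖ * Real.sqrt (hs2 A) := by
        refine Finset.sum_le_sum fun i _ => Finset.sum_le_sum fun j _ => ?_
        rw [abs_mul]
        have h1 := tri_le B (bv k) i j
        rw [norm_bv, mul_one] at h1
        have h3 := abs_le_hs A i j
        gcongr
    _ = _ := by
        simp only [Finset.sum_const, Finset.card_univ, Fintype.card_fin, nsmul_eq_mul]
        ring

lemma abs_tr3_le (A : Bil d) : |tr3 A| ≤ (d : ℝ) ^ 3 * Real.sqrt (hs2 A) ^ 3 := by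
  unfold tr3
  calc |∑ i, ∑ j, ∑ k, A (bv i) (bv j) * A (bv j) (bv k) * A (bv k) (bv i)|
      ≤ ∑ i, ∑ j, ∑ k, |A (bv i) (bv j) * A (bv j) (bv k) * A (bv k) (bv i)| :=
        (Finset.abs_sum_le_sum_abs _ _).trans (Finset.sum_le_sum fun i _ =>
          (Finset.abs_sum_le_sum_abs _ _).trans (Finset.sum_le_sum fun j _ =>
            Finset.abs_sum_le_sum_abs _ _))
    _ ≤ ∑ _i : Fin d, ∑ _j : Fin d, ∑ _k : Fin d,
          Real.sqrt (hs2 A) * Real.sqrt (hs2 A) * Real.sqrt (hs2 A) := by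
        refine Finset.sum_le_sum fun i _ => Finset.sum_le_sum fun j _ =>
          Finset.sum_le_sum fun k _ => ?_
        rw [abs_mul, abs_mul]
        have h1 := abs_le_hs A i j
        have h2 := abs_le_hs A j k
        have h3 := abs_le_hs A k i
        gcongr
    _ = _ := by
        simp only [Finset.sum_const, Finset.card_univ, Fintype.card_fin, nsmul_eq_mul]
        ring

variable {u : E d → ℝ}

/-- derivative of `tr (D²u)³` -/
lemma has_tr3 (H : HC u) {x : E d} (hx : x ∈ Om u) :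
    ∃ L : E d →L[ℝ] ℝ, HasFDerivAt (fun y => tr3 (D2 u y)) L x ∧
      ‖L‖ ≤ 3 * (d : ℝ) ^ 3 * Real.sqrt (hs2 (D2 u x)) ^ 2 * ‖D3 u x‖ := by
  have h2 : ∀ i j : Fin d, HasFDerivAt (fun y => D2 u y (bv i) (bv j))
      (((D3 u x).flip (bv i)).flip (bv j)) x := fun i j => H.hasD2e hx _ _
  have h3 : HasFDerivAt (fun y => tr3 (D2 u y))
      (∑ i, ∑ j, ∑ k, ((D2 u x (bv i) (bv j) * D2 u x (bv j) (bv k)) •
        (((D3 u x).flip (bv k)).flip (bv i)) + D2 u x (bv k) (bv i) •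
        (D2 u x (bv i) (bv j) • (((D3 u x).flip (bv j)).flip (bv k)) +
          D2 u x (bv j) (bv k) • (((D3 u x).flip (bv i)).flip (bv j))))) x := by
    unfold tr3
    refine HasFDerivAt.fun_sum fun i _ => HasFDerivAt.fun_sum fun j _ =>
      HasFDerivAt.fun_sum fun k _ => ?_
    exact ((h2 i j).mul (h2 j k)).mul (h2 k i)
  refine ⟨_, h3, ?_⟩
  set μ := Real.sqrt (hs2 (D2 u x)) with hμ
  have hμ0 : 0 ≤ μ := Real.sqrt_nonneg _
  have hb : ∀ i j : Fin d, ‖(((D3 u x).flip (bv i)).flip (bv j))‖ ≤ ‖D3 u x‖ := by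
    intro i j
    refine ContinuousLinearMap.opNorm_le_bound _ (norm_nonneg _) fun v => ?_
    exact tri_le (D3 u x) v i j
  have hA : ∀ i j : Fin d, ‖D2 u x (bv i) (bv j)‖ ≤ μ := fun i j => abs_le_hs _ i j
  calc _ ≤ ∑ i : Fin d, ∑ j : Fin d, ∑ k : Fin d, ‖((D2 u x (bv i) (bv j) * D2 u x (bv j) (bv k)) •
        (((D3 u x).flip (bv k)).flip (bv i)) + D2 u x (bv k) (bv i) •
        (D2 u x (bv i) (bv j) • (((D3 u x).flip (bv j)).flip (bv k)) +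
          D2 u x (bv j) (bv k) • (((D3 u x).flip (bv i)).flip (bv j))))‖ :=
        (norm_sum_le _ _).trans (Finset.sum_le_sum fun i _ =>
          (norm_sum_le _ _).trans (Finset.sum_le_sum fun j _ => norm_sum_le _ _))
    _ ≤ ∑ _i : Fin d, ∑ _j : Fin d, ∑ _k : Fin d, (μ * μ * ‖D3 u x‖ + μ * (μ * ‖D3 u x‖ +
          μ * ‖D3 u x‖)) := by
        refine Finset.sum_le_sum fun i _ => Finset.sum_le_sum fun j _ =>
          Finset.sum_le_sum fun k _ => ?_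
        refine (norm_add_le _ _).trans (add_le_add ?_ ?_)
        · rw [norm_smul, norm_mul]
          have h1 := hA i j
          have h2 := hA j k
          have h3 := hb k i
          gcongr
        · rw [norm_smul]
          have h1 := hA k i
          refine mul_le_mul h1 ((norm_add_le _ _).trans (add_le_add ?_ ?_)) (norm_nonneg _) hμ0
          · rw [norm_smul]
            exact mul_le_mul (hA i j) (hb j k) (norm_nonneg _) hμ0
          · rw [norm_smul]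
            exact mul_le_mul (hA j k) (hb i j) (norm_nonneg _) hμ0
    _ = _ := by
        simp only [Finset.sum_const, Finset.card_univ, Fintype.card_fin, nsmul_eq_mul]
        ring

/-- derivative of `‖y‖ ^ 3` -/
lemma has_norm3 {x : E d} (hx : x ≠ 0) :
    HasFDerivAt (fun y : E d => ‖y‖ ^ 3) ((3 * ‖x‖) • innerSL ℝ x) x := by
  have hn : ‖x‖ ≠ 0 := norm_ne_zero_iff.2 hx
  have hn0 : 0 < ‖x‖ := norm_pos_iff.2 hx
  have h1 : HasDerivAt (fun t : ℝ => Real.exp (3 * t)) (3 * ‖x‖ ^ 3) (Real.log ‖x‖) := by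
    have : HasDerivAt (fun t : ℝ => Real.exp (3 * t)) (Real.exp (3 * Real.log ‖x‖) * (3 * 1))
        (Real.log ‖x‖) := ((hasDerivAt_id (Real.log ‖x‖)).const_mul (3 : ℝ)).exp
    have e : Real.exp (3 * Real.log ‖x‖) = ‖x‖ ^ 3 := by
      rw [mul_comm, Real.exp_mul, Real.exp_log hn0]; norm_cast
    rw [e] at this
    refine this.congr_deriv ?_
    ring
  have h2 := hasFDerivAt_radial hx h1
  have h3 : (fun y : E d => ‖y‖ ^ 3) =ᶠ[𝓝 x] fun y => Real.exp (3 * Real.log ‖y‖) := by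
    filter_upwards [isOpen_ne.mem_nhds hx] with y hy
    rw [mul_comm, Real.exp_mul, Real.exp_log (norm_pos_iff.2 hy)]; norm_cast
  refine (h2.congr_of_eventuallyEq h3).congr_fderiv ?_
  congr 1
  field_simp

/-- derivative of `‖y‖⁻¹` -/
lemma has_norm_inv {x : E d} (hx : x ≠ 0) :
    HasFDerivAt (fun y : E d => ‖y‖⁻¹) ((-(‖x‖ ^ 3)⁻¹) • innerSL ℝ x) x := by
  have hn : ‖x‖ ≠ 0 := norm_ne_zero_iff.2 hx
  have hn0 : 0 < ‖x‖ := norm_pos_iff.2 hx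
  have h1 : HasDerivAt (fun t : ℝ => Real.exp (-t)) (-(‖x‖⁻¹)) (Real.log ‖x‖) := by
    have : HasDerivAt (fun t : ℝ => Real.exp (-t)) (Real.exp (-Real.log ‖x‖) * (-1))
        (Real.log ‖x‖) := (hasDerivAt_id (Real.log ‖x‖)).neg.exp
    have e : Real.exp (-Real.log ‖x‖) = ‖x‖⁻¹ := by
      rw [Real.exp_neg, Real.exp_log hn0]
    rw [e] at this
    refine this.congr_deriv ?_
    ring
  have h2 := hasFDerivAt_radial hx h1
  have h3 : (fun y : E d => ‖y‖⁻¹) =ᶠ[𝓝 x] fun y => Real.exp (-Real.log ‖y‖) := by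
    filter_upwards [isOpen_ne.mem_nhds hx] with y hy
    rw [Real.exp_neg, Real.exp_log (norm_pos_iff.2 hy)]
  refine (h2.congr_of_eventuallyEq h3).congr_fderiv ?_
  congr 1
  field_simp

/-- derivatives of the four arguments, with bounds -/
lemma has_z (H : HC u) {x : E d} (hx : x ∈ Om u) {a b B μ : ℝ} (ha : 0 < a) (hax : a ≤ ‖x‖)
    (hxb : ‖x‖ ≤ b) (hB : 1 ≤ B) (hμ : μ = Real.sqrt (hs2 (D2 u x))) (hμB : μ ≤ B)
    (hD : ‖D3 u x‖ ≤ B) (hP : ‖fderiv ℝ u x‖ ≤ 1) (hs0 : 0 ≤ sN u x) (hs1 : sN u x ≤ 1) :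
    ∃ L : Fin 4 → (E d →L[ℝ] ℝ), (∀ i, HasFDerivAt (fun y => zN u y i) (L i) x) ∧
      ‖L 0‖ ≤ (2 * B * b + 2 * d * b ^ 2 * B) * μ ∧
      ‖L 1‖ ≤ (3 * b ^ 2 * d ^ 3 * B ^ 2 + 3 * b ^ 3 * d ^ 3 * B ^ 2) * μ ∧
      ‖L 2‖ ≤ 2 * d * (d * d * B) + 4 / a ∧ ‖L 3‖ ≤ 2 / a := by
  have hx0 : x ≠ 0 := H.ne_zero hx
  have hn0 : 0 < ‖x‖ := norm_pos_iff.2 hx0
  have hb0 : 0 < b := hn0.trans_le hxb
  have hμ0 : 0 ≤ μ := by rw [hμ]; exact Real.sqrt_nonneg _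
  have hm : hs2 (D2 u x) = μ ^ 2 := by rw [hμ, Real.sq_sqrt (hs2_nonneg _)]
  have hin : ‖(innerSL ℝ x : E d →L[ℝ] ℝ)‖ = ‖x‖ := by simp
  -- component 0
  have h0a : HasFDerivAt (fun y : E d => ‖y‖ ^ 2) (2 • (innerSL ℝ x)) x := by
    have := (hasStrictFDerivAt_norm_sq (F := E d) x).hasFDerivAt
    simpa using this
  have hd2 : DifferentiableAt ℝ (D2 u) x := (H.hasD3 hx).differentiableAt
  have h0b : HasFDerivAt (fun y => hs2 (D2 u y)) (fderiv ℝ (fun y => hs2 (D2 u y)) x) x :=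
    (((contDiff_hs2 (d := d)).differentiable (by simp)).differentiableAt.comp x hd2).hasFDerivAt
  have h0 : HasFDerivAt (fun y => zN u y 0)
      (‖x‖ ^ 2 • fderiv ℝ (fun y => hs2 (D2 u y)) x + hs2 (D2 u x) • (2 • (innerSL ℝ x))) x :=
    h0a.mul h0b
  have n0 : ‖‖x‖ ^ 2 • fderiv ℝ (fun y => hs2 (D2 u y)) x +
      hs2 (D2 u x) • (2 • (innerSL ℝ x))‖ ≤ (2 * B * b + 2 * d * b ^ 2 * B) * μ := by
    have e1 := norm_fderiv_m_le hd2
    rw [← hμ] at e1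
    have e2 : ‖‖x‖ ^ 2 • fderiv ℝ (fun y => hs2 (D2 u y)) x‖ ≤ b ^ 2 * (2 * d * μ * B) := by
      rw [norm_smul, norm_pow, norm_norm]
      have : ‖fderiv ℝ (fun y => hs2 (D2 u y)) x‖ ≤ 2 * d * μ * B := e1.trans (by gcongr)
      gcongr
    have e3 : ‖hs2 (D2 u x) • ((2 : ℕ) • (innerSL ℝ x : E d →L[ℝ] ℝ))‖ ≤ μ * B * (2 * b) := by
      rw [norm_smul, hm, Real.norm_of_nonneg (by positivity)]
      have : ‖(2 : ℕ) • (innerSL ℝ x : E d →L[ℝ] ℝ)‖ ≤ 2 * b := by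
        rw [← Nat.cast_smul_eq_nsmul ℝ, norm_smul, hin]
        simp only [Nat.cast_ofNat, Real.norm_ofNat]
        linarith
      have h2 : μ ^ 2 ≤ μ * B := by nlinarith
      gcongr
    calc _ ≤ _ := norm_add_le _ _
      _ ≤ b ^ 2 * (2 * d * μ * B) + μ * B * (2 * b) := add_le_add e2 e3
      _ = _ := by ring
  -- component 1
  obtain ⟨L1, h1a, h1b⟩ := has_tr3 H hx
  rw [← hμ] at h1b
  have h1 : HasFDerivAt (fun y => zN u y 1)
      (‖x‖ ^ 3 • L1 + tr3 (D2 u x) • ((3 * ‖x‖) • innerSL ℝ x)) x := (has_norm3 hx0).mul h1a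
  have n1 : ‖‖x‖ ^ 3 • L1 + tr3 (D2 u x) • ((3 * ‖x‖) • (innerSL ℝ x : E d →L[ℝ] ℝ))‖ ≤
      (3 * b ^ 2 * d ^ 3 * B ^ 2 + 3 * b ^ 3 * d ^ 3 * B ^ 2) * μ := by
    have hμ2 : μ ^ 2 ≤ μ * B := by nlinarith
    have e2 : ‖‖x‖ ^ 3 • L1‖ ≤ b ^ 3 * (3 * d ^ 3 * (μ * B) * B) := by
      rw [norm_smul, norm_pow, norm_norm]
      have : ‖L1‖ ≤ 3 * d ^ 3 * (μ * B) * B := h1b.trans (by gcongr)
      gcongr
    have e3 : ‖tr3 (D2 u x) • ((3 * ‖x‖) • (innerSL ℝ x : E d →L[ℝ] ℝ))‖ ≤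
        (d ^ 3 * (μ * B * B)) * (3 * b * b) := by
      rw [norm_smul, norm_smul, hin, Real.norm_eq_abs, Real.norm_of_nonneg (by positivity)]
      have e4 := abs_tr3_le (D2 u x)
      rw [← hμ] at e4
      have e5 : μ ^ 3 ≤ μ * B * B := by
        calc μ ^ 3 = μ ^ 2 * μ := by ring
          _ ≤ (μ * B) * B := by gcongr
      have e6 : |tr3 (D2 u x)| ≤ d ^ 3 * (μ * B * B) := e4.trans (by gcongr)
      gcongr
    calc _ ≤ _ := norm_add_le _ _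
      _ ≤ b ^ 3 * (3 * d ^ 3 * (μ * B) * B) + (d ^ 3 * (μ * B * B)) * (3 * b * b) :=
        add_le_add e2 e3
      _ = _ := by ring
  -- component 3
  have h3 : HasFDerivAt (fun y => zN u y 3)
      (u x • ((-(‖x‖ ^ 3)⁻¹) • innerSL ℝ x) + ‖x‖⁻¹ • fderiv ℝ u x) x := by
    have : (fun y => zN u y 3) = fun y => u y * ‖y‖⁻¹ := by
      ext y
      simp [zN, sN, div_eq_mul_inv]
    rw [this]
    exact (H.hasD1 hx).mul (has_norm_inv hx0)
  have hux : u x = sN u x * ‖x‖ := by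
    unfold sN; field_simp
  have n3 : ‖u x • ((-(‖x‖ ^ 3)⁻¹) • (innerSL ℝ x : E d →L[ℝ] ℝ)) + ‖x‖⁻¹ • fderiv ℝ u x‖ ≤
      2 / a := by
    have e1 : ‖u x • ((-(‖x‖ ^ 3)⁻¹) • (innerSL ℝ x : E d →L[ℝ] ℝ))‖ ≤ 1 / a := by
      rw [norm_smul, norm_smul, hin, norm_neg, Real.norm_of_nonneg (by positivity : 0 ≤ (‖x‖ ^ 3)⁻¹),
        hux, norm_mul, norm_norm, Real.norm_of_nonneg hs0]
      have : sN u x * ‖x‖ * ((‖x‖ ^ 3)⁻¹ * ‖x‖) = sN u x * ‖x‖⁻¹ := by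
        field_simp
      rw [this, one_div]
      calc sN u x * ‖x‖⁻¹ ≤ 1 * a⁻¹ := by gcongr
        _ = a⁻¹ := one_mul _
    have e2 : ‖‖x‖⁻¹ • fderiv ℝ u x‖ ≤ 1 / a := by
      rw [norm_smul, Real.norm_of_nonneg (by positivity), one_div]
      calc ‖x‖⁻¹ * ‖fderiv ℝ u x‖ ≤ a⁻¹ * 1 := by gcongr
        _ = a⁻¹ := mul_one _
    calc _ ≤ _ := norm_add_le _ _
      _ ≤ 1 / a + 1 / a := add_le_add e1 e2
      _ = _ := by ring
  -- component 2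
  have hbl : ∀ i : Fin d, ‖(D2 u x).flip (bv i)‖ ≤ d * d * B := by
    intro i
    refine ContinuousLinearMap.opNorm_le_bound _ (by positivity) fun v => ?_
    have e1 := bil_le (D2 u x) v (bv i)
    rw [norm_bv, mul_one, ← hμ] at e1
    rw [ContinuousLinearMap.flip_apply, Real.norm_eq_abs]
    refine e1.trans ?_
    gcongr
  have h2a : HasFDerivAt (fun y => ∑ i, (fderiv ℝ u y (bv i)) ^ 2)
      (∑ i, (2 * fderiv ℝ u x (bv i)) • (D2 u x).flip (bv i)) x := by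
    refine HasFDerivAt.fun_sum fun i _ => ?_
    have := (had_app1 (H.hasD2 hx) (bv i)).pow 2
    refine this.congr_fderiv ?_
    ext v
    simp
  set L3 : E d →L[ℝ] ℝ := u x • ((-(‖x‖ ^ 3)⁻¹) • innerSL ℝ x) + ‖x‖⁻¹ • fderiv ℝ u x with hL3
  have h2b : HasFDerivAt (fun y => zN u y 3 ^ 2) ((2 * zN u x 3) • L3) x := by
    refine (h3.pow 2).congr_fderiv ?_
    ext v
    simp
  have e2 : (fun y => zN u y 2) = fun y => (∑ i, (fderiv ℝ u y (bv i)) ^ 2) - zN u y 3 ^ 2 := by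
    ext y
    have : ‖∇ u y‖ ^ 2 = ∑ i, (fderiv ℝ u y (bv i)) ^ 2 := by
      rw [EuclideanSpace.norm_sq_eq]
      refine Finset.sum_congr rfl fun i _ => ?_
      rw [gradient_coord, Real.norm_eq_abs, sq_abs]
    simp [zN, qN, sN, this]
  have h2 := h2a.sub h2b
  have h2' : HasFDerivAt (fun y => zN u y 2) ((∑ i, (2 * fderiv ℝ u x (bv i)) •
      (D2 u x).flip (bv i)) - (2 * zN u x 3) • L3) x := by
    rw [e2]; exact h2
  refine ⟨![‖x‖ ^ 2 • fderiv ℝ (fun y => hs2 (D2 u y)) x + hs2 (D2 u x) • (2 • (innerSL ℝ x)),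
    ‖x‖ ^ 3 • L1 + tr3 (D2 u x) • ((3 * ‖x‖) • innerSL ℝ x),
    (∑ i, (2 * fderiv ℝ u x (bv i)) • (D2 u x).flip (bv i)) - (2 * zN u x 3) • L3, L3],
    ?_, n0, n1, ?_, n3⟩
  · intro i
    fin_cases i
    · exact h0
    · exact h1
    · exact h2'
    · exact h3
  · show ‖(∑ i, (2 * fderiv ℝ u x (bv i)) • (D2 u x).flip (bv i)) - (2 * zN u x 3) • L3‖ ≤ _
    refine (norm_sub_le _ _).trans (add_le_add ?_ ?_)
    · calc ‖∑ i, (2 * fderiv ℝ u x (bv i)) • (D2 u x).flip (bv i)‖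
          ≤ ∑ i, ‖(2 * fderiv ℝ u x (bv i)) • (D2 u x).flip (bv i)‖ := norm_sum_le _ _
        _ ≤ ∑ _i : Fin d, 2 * (d * d * B) := by
            refine Finset.sum_le_sum fun i _ => ?_
            rw [norm_smul, norm_mul, Real.norm_ofNat]
            have e3 : ‖fderiv ℝ u x (bv i)‖ ≤ 1 := by
              have := (fderiv ℝ u x).le_opNorm (bv i)
              rw [norm_bv, mul_one] at this
              exact this.trans hP
            have e4 := hbl i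
            calc 2 * ‖fderiv ℝ u x (bv i)‖ * ‖(D2 u x).flip (bv i)‖ ≤ 2 * 1 * (d * d * B) := by
                  gcongr
              _ = _ := by ring
        _ = 2 * d * (d * d * B) := by
            simp only [Finset.sum_const, Finset.card_univ, Fintype.card_fin, nsmul_eq_mul]
            ring
    · rw [norm_smul, norm_mul, Real.norm_ofNat]
      have e5 : ‖zN u x 3‖ ≤ 1 := by
        show ‖sN u x‖ ≤ 1
        rw [Real.norm_of_nonneg hs0]; exact hs1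
      calc 2 * ‖zN u x 3‖ * ‖L3‖ ≤ 2 * 1 * (2 / a) := by gcongr
        _ = 4 / a := by ring

end REn

open REn

variable {n : ℕ} {u : E (n + 1) → ℝ} {C : CertData} {Lam : ℝ}

/-- growth at the points of the cone -/
lemma growth_x (hC : Cert n C Lam) (hGA : GrowthA n C)
    (hst : ∀ x ∈ Wn u, ∃ lam g : Fin n → ℝ, Adm lam g (sN u x) ∧ zN u x = zv lam g (sN u x))
    (R : ℝ) : ∃ K : ℝ, 0 ≤ K ∧ ∀ x ∈ Wn u, ‖x‖ ^ 2 * hs2 (D2 u x) ≤ R →
      0 < C.Z.f (zN u x) ∧ C.Z.f (zN u x) ≤ K * (‖x‖ * Real.sqrt (hs2 (D2 u x))) ^ 2 ∧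
      |C.Z.d 0 (zN u x)| ≤ K ∧ |C.Z.d 1 (zN u x)| ≤ K ∧
      |C.Z.d 2 (zN u x)| ≤ K * (‖x‖ * Real.sqrt (hs2 (D2 u x))) ∧
      |C.Z.d 3 (zN u x)| ≤ K * (‖x‖ * Real.sqrt (hs2 (D2 u x))) ∧
      |C.y0.f (zN u x)| ≤ K * (‖x‖ * Real.sqrt (hs2 (D2 u x))) ∧
      |C.ga.f (zN u x)| ≤ K ∧ |C.y1.f (zN u x)| ≤ K ∧ |C.y2.f (zN u x)| ≤ K ∧
      |C.y3.f (zN u x)| ≤ K := by
  obtain ⟨K, hK⟩ := hGA R
  refine ⟨max K 0, le_max_right _ _, fun x hx hR => ?_⟩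
  obtain ⟨lam, g, hA, hz⟩ := hst x hx
  have h0 : ∑ i, lam i ^ 2 = ‖x‖ ^ 2 * hs2 (D2 u x) := by
    have := congrFun hz 0
    simpa [zN, zv] using this.symm
  have h1 := hK lam g (sN u x) hA (by rw [h0]; exact hR)
  rw [← hz, h0] at h1
  have hs : Real.sqrt (‖x‖ ^ 2 * hs2 (D2 u x)) = ‖x‖ * Real.sqrt (hs2 (D2 u x)) := by
    rw [Real.sqrt_mul (by positivity), Real.sqrt_sq (norm_nonneg _)]
  rw [hs] at h1
  have hsq : ‖x‖ ^ 2 * hs2 (D2 u x) = (‖x‖ * Real.sqrt (hs2 (D2 u x))) ^ 2 := by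
    rw [mul_pow, Real.sq_sqrt (hs2_nonneg _)]
  rw [hsq] at h1
  have hp : 0 ≤ ‖x‖ * Real.sqrt (hs2 (D2 u x)) := by positivity
  have hKm : K ≤ max K 0 := le_max_left _ _
  obtain ⟨a1, a2, a3, a4, a5, a6, a7, a8, a9, a10⟩ := h1
  refine ⟨by rw [hz]; exact hC.Zpos lam g (sN u x) hA, a1.trans (by gcongr), a2.trans hKm,
    a3.trans hKm, a4.trans (by gcongr), a5.trans (by gcongr), a6.trans (by gcongr),
    a7.trans hKm, a8.trans hKm, a9.trans hKm, a10.trans hKm⟩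

/-- the bound for the test function (field `wbd` of `RedHyp`) -/
theorem red_wbd (hC : Cert n C Lam) (hGA : GrowthA n C)
    (hst : ∀ x ∈ Wn u, ∃ lam g : Fin n → ℝ, Adm lam g (sN u x) ∧ zN u x = zv lam g (sN u x))
    (hbd : ∀ a b : ℝ, 0 < a → ∃ B : ℝ, ∀ x ∈ Om u, x ∈ Ann (n + 1) a b →
      hs2 (D2 u x) ≤ B ∧ ‖D3 u x‖ ≤ B) :
    ∀ a b : ℝ, 0 < a → ∃ C' : ℝ, ∀ x ∈ Wn u, x ∈ Ann (n + 1) a b → wC C u x ≤ C' := by
  intro a b ha
  obtain ⟨B, hB⟩ := hbd a b ha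
  obtain ⟨K, hK0, hK⟩ := growth_x hC hGA hst (b ^ 2 * B)
  refine ⟨Real.sqrt (K * (b ^ 2 * B)), fun x hx hxA => ?_⟩
  have h1 := (hB x hx.1 hxA).1
  have hm := hs2_nonneg (D2 u x)
  have h2 : ‖x‖ ^ 2 * hs2 (D2 u x) ≤ b ^ 2 * B := by
    have := hxA.2
    gcongr
  have h3 := (hK x hx h2).2.1
  unfold wC
  refine Real.sqrt_le_sqrt (h3.trans ?_)
  rw [mul_pow, Real.sq_sqrt hm]
  gcongr

/-- pointwise bound of the gradient of the test function -/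
lemma wgrad_le {d : ℕ} {u : E d → ℝ} (H : HC u) (okZ : C.Z.Ok) {x : E d} (hx : x ∈ Om u)
    (hx2 : 0 < hs2 (D2 u x)) {a b B μ K : ℝ} (ha : 0 < a) (hax : a ≤ ‖x‖)
    (hxb : ‖x‖ ≤ b) (hB : 1 ≤ B) (hμ : μ = Real.sqrt (hs2 (D2 u x))) (hμB : μ ≤ B)
    (hD : ‖D3 u x‖ ≤ B) (hP : ‖fderiv ℝ u x‖ ≤ 1) (hs0 : 0 ≤ sN u x) (hs1 : sN u x ≤ 1)
    (hK : 0 ≤ K) (z0 : 0 < C.Z.f (zN u x)) (z2 : |C.Z.d 0 (zN u x)| ≤ K)
    (z3 : |C.Z.d 1 (zN u x)| ≤ K) (z4 : |C.Z.d 2 (zN u x)| ≤ K * (‖x‖ * μ))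
    (z5 : |C.Z.d 3 (zN u x)| ≤ K * (‖x‖ * μ)) :
    wC C u x * ‖fderiv ℝ (wC C u) x‖ ≤
      (K * (2 * B * b + 2 * d * b ^ 2 * B) +
      K * (3 * b ^ 2 * d ^ 3 * B ^ 2 + 3 * b ^ 3 * d ^ 3 * B ^ 2) +
      (K * b) * (2 * d * (d * d * B) + 4 / a) + (K * b) * (2 / a)) * μ := by
  have hn0 : 0 < ‖x‖ := norm_pos_iff.2 (H.ne_zero hx)
  have hb0 : 0 < b := hn0.trans_le hxb
  have hμ0 : 0 ≤ μ := by rw [hμ]; exact Real.sqrt_nonneg _
  obtain ⟨L, hL, n0, n1, n2, n3⟩ := has_z H hx ha hax hxb hB hμ hμB hD hP hs0 hs1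
  have hzf : HasFDerivAt (zN u) (ContinuousLinearMap.pi L) x := hasFDerivAt_pi.2 hL
  have hz00 : 0 < zN u x 0 := by
    show 0 < ‖x‖ ^ 2 * hs2 (D2 u x)
    positivity
  have hZ : HasFDerivAt (fun y => C.Z.f (zN u y)) (∑ i, C.Z.d i (zN u x) • L i) x := by
    have := (okZ.has (zN u x) hz00).comp x hzf
    refine this.congr_fderiv ?_
    ext v
    simp
  have hw : HasFDerivAt (wC C u) ((1 / (2 * Real.sqrt (C.Z.f (zN u x)))) •
      (∑ i, C.Z.d i (zN u x) • L i)) x := hZ.sqrt z0.ne'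
  rw [hw.fderiv, norm_smul]
  have hsq : 0 < Real.sqrt (C.Z.f (zN u x)) := Real.sqrt_pos.2 z0
  have e1 : wC C u x * (‖1 / (2 * Real.sqrt (C.Z.f (zN u x)))‖ * ‖∑ i, C.Z.d i (zN u x) • L i‖) =
      ‖∑ i, C.Z.d i (zN u x) • L i‖ / 2 := by
    rw [Real.norm_of_nonneg (by positivity)]
    unfold wC
    field_simp
  rw [e1]
  have e2 : ‖∑ i, C.Z.d i (zN u x) • L i‖ ≤ ∑ i, |C.Z.d i (zN u x)| * ‖L i‖ := by
    refine (norm_sum_le _ _).trans (Finset.sum_le_sum fun i _ => ?_)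
    rw [norm_smul, Real.norm_eq_abs]
  rw [Fin.sum_univ_four (fun i => |C.Z.d i (zN u x)| * ‖L i‖)] at e2
  have e3 : |C.Z.d 0 (zN u x)| * ‖L 0‖ ≤ K * ((2 * B * b + 2 * d * b ^ 2 * B) * μ) := by
    gcongr
  have e4 : |C.Z.d 1 (zN u x)| * ‖L 1‖ ≤
      K * ((3 * b ^ 2 * d ^ 3 * B ^ 2 + 3 * b ^ 3 * d ^ 3 * B ^ 2) * μ) := by
    gcongr
  have e5 : |C.Z.d 2 (zN u x)| * ‖L 2‖ ≤ (K * (b * μ)) * (2 * d * (d * d * B) + 4 / a) := by
    have : |C.Z.d 2 (zN u x)| ≤ K * (b * μ) := z4.trans (by gcongr)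
    gcongr
  have e6 : |C.Z.d 3 (zN u x)| * ‖L 3‖ ≤ (K * (b * μ)) * (2 / a) := by
    have : |C.Z.d 3 (zN u x)| ≤ K * (b * μ) := z5.trans (by gcongr)
    gcongr
  have e7 : 0 ≤ ‖∑ i, C.Z.d i (zN u x) • L i‖ := norm_nonneg _
  calc ‖∑ i, C.Z.d i (zN u x) • L i‖ / 2 ≤ ‖∑ i, C.Z.d i (zN u x) • L i‖ := by linarith
    _ ≤ _ := e2
    _ ≤ K * ((2 * B * b + 2 * d * b ^ 2 * B) * μ) +
        K * ((3 * b ^ 2 * d ^ 3 * B ^ 2 + 3 * b ^ 3 * d ^ 3 * B ^ 2) * μ) +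
        (K * (b * μ)) * (2 * d * (d * d * B) + 4 / a) + (K * (b * μ)) * (2 / a) :=
        add_le_add (add_le_add (add_le_add e3 e4) e5) e6
    _ = _ := by ring

/-- pointwise bound of the field -/
lemma field_le {d : ℕ} {u : E d → ℝ} (H : HC u) {x : E d} (hx : x ∈ Om u)
    {a b B μ K : ℝ} (ha : 0 < a) (hax : a ≤ ‖x‖)
    (hxb : ‖x‖ ≤ b) (hB : 1 ≤ B) (hμ : μ = Real.sqrt (hs2 (D2 u x))) (hμB : μ ≤ B)
    (hD : ‖D3 u x‖ ≤ B) (hP : ‖fderiv ℝ u x‖ ≤ 1) (hs0 : 0 ≤ sN u x) (hs1 : sN u x ≤ 1)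
    (hK : 0 ≤ K) (z6 : |C.y0.f (zN u x)| ≤ K * (‖x‖ * μ))
    (z7 : |C.ga.f (zN u x)| ≤ K) (z8 : |C.y1.f (zN u x)| ≤ K) (z9 : |C.y2.f (zN u x)| ≤ K)
    (z10 : |C.y3.f (zN u x)| ≤ K) :
    ‖XC C u x‖ ≤ (K * (b ^ 2 * (d * (d * d * B)) + B * b) + K * b * a⁻¹ * 2 +
      K * (d * (d * d)) + K * b * (d * (d * d * B * (d * (d * d)))) +
      K * b ^ 2 * (d * (d * d * B * (d * (d * d * B * (d * (d * d))))))) * μ := by
  have hn0 : 0 < ‖x‖ := norm_pos_iff.2 (H.ne_zero hx)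
  have hb0 : 0 < b := hn0.trans_le hxb
  have hμ0 : 0 ≤ μ := by rw [hμ]; exact Real.sqrt_nonneg _
  have hmμ : hs2 (D2 u x) = μ ^ 2 := by rw [hμ, Real.sq_sqrt (hs2_nonneg _)]
  have hg : ‖∇ u x‖ ≤ 1 := by rw [norm_gradient]; exact hP
  have hW : ‖W1f u x‖ ≤ (b ^ 2 * (d * (d * d * B)) + B * b) * μ := by
    have e1 := norm_TM_le (D2 u x) (D3 u x)
    rw [← hμ] at e1
    have e2 : ‖‖x‖ ^ 2 • TM (D2 u x) (D3 u x)‖ ≤ b ^ 2 * (d * (d * d * (B * μ))) := by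
      rw [norm_smul, norm_pow, norm_norm]
      have : ‖TM (D2 u x) (D3 u x)‖ ≤ d * (d * d * (B * μ)) := e1.trans (by gcongr)
      gcongr
    have e3 : ‖hs2 (D2 u x) • x‖ ≤ μ * B * b := by
      rw [norm_smul, hmμ, Real.norm_of_nonneg (by positivity)]
      have : μ ^ 2 ≤ μ * B := by nlinarith
      gcongr
    unfold W1f
    calc _ ≤ _ := norm_add_le _ _
      _ ≤ b ^ 2 * (d * (d * d * (B * μ))) + μ * B * b := add_le_add e2 e3
      _ = _ := by ring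
  have hG : ‖gN u x‖ ≤ 2 := by
    unfold gN
    have e1 : ‖(u x / ‖x‖ ^ 2) • x‖ ≤ 1 := by
      rw [norm_smul]
      have hux : 0 < u x := hx
      rw [Real.norm_of_nonneg (by positivity)]
      have : u x / ‖x‖ ^ 2 * ‖x‖ = sN u x := by
        unfold sN; field_simp
      rw [this]; exact hs1
    calc _ ≤ _ := norm_sub_le _ _
      _ ≤ 1 + 1 := add_le_add hg e1
      _ = 2 := by norm_num
  have hZf : ‖Zf u x‖ ≤ d * (d * d * μ) := by
    unfold Zf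
    have := norm_act_le (D2 u x) (∇ u x)
    rw [← hμ] at this
    calc _ ≤ _ := this
      _ ≤ d * (d * d * μ * 1) := by gcongr
      _ = _ := by ring
  have hZ2 : ‖act (D2 u x) (Zf u x)‖ ≤ d * (d * d * B * (d * (d * d * μ))) := by
    have := norm_act_le (D2 u x) (Zf u x)
    rw [← hμ] at this
    exact this.trans (by gcongr)
  have hZ3 : ‖act (D2 u x) (act (D2 u x) (Zf u x))‖ ≤
      d * (d * d * B * (d * (d * d * B * (d * (d * d * μ))))) := by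
    have := norm_act_le (D2 u x) (act (D2 u x) (Zf u x))
    rw [← hμ] at this
    exact this.trans (by gcongr)
  have t1 : ‖C.ga.f (zN u x) • W1f u x‖ ≤ K * ((b ^ 2 * (d * (d * d * B)) + B * b) * μ) := by
    rw [norm_smul, Real.norm_eq_abs]; gcongr
  have t2 : ‖(C.y0.f (zN u x) * ‖x‖⁻¹) • gN u x‖ ≤ K * (b * μ) * a⁻¹ * 2 := by
    rw [norm_smul, norm_mul, norm_inv, norm_norm, Real.norm_eq_abs]
    have : |C.y0.f (zN u x)| ≤ K * (b * μ) := z6.trans (by gcongr)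
    gcongr
  have t3 : ‖C.y1.f (zN u x) • Zf u x‖ ≤ K * (d * (d * d * μ)) := by
    rw [norm_smul, Real.norm_eq_abs]; gcongr
  have t4 : ‖(C.y2.f (zN u x) * ‖x‖) • act (D2 u x) (Zf u x)‖ ≤
      K * b * (d * (d * d * B * (d * (d * d * μ)))) := by
    rw [norm_smul, norm_mul, norm_norm, Real.norm_eq_abs]; gcongr
  have t5 : ‖(C.y3.f (zN u x) * ‖x‖ ^ 2) • act (D2 u x) (act (D2 u x) (Zf u x))‖ ≤
      K * b ^ 2 * (d * (d * d * B * (d * (d * d * B * (d * (d * d * μ)))))) := by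
    rw [norm_smul, norm_mul, norm_pow, norm_norm, Real.norm_eq_abs]; gcongr
  unfold XC
  calc _ ≤ ‖C.ga.f (zN u x) • W1f u x‖ + ‖(C.y0.f (zN u x) * ‖x‖⁻¹) • gN u x‖ +
        ‖C.y1.f (zN u x) • Zf u x‖ + ‖(C.y2.f (zN u x) * ‖x‖) • act (D2 u x) (Zf u x)‖ +
        ‖(C.y3.f (zN u x) * ‖x‖ ^ 2) • act (D2 u x) (act (D2 u x) (Zf u x))‖ :=
        (norm_add_le _ _).trans (add_le_add_left ((norm_add_le _ _).trans
          (add_le_add_left ((norm_add_le _ _).trans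
          (add_le_add_left (norm_add_le _ _) _)) _)) _)
    _ ≤ K * ((b ^ 2 * (d * (d * d * B)) + B * b) * μ) + K * (b * μ) * a⁻¹ * 2 +
        K * (d * (d * d * μ)) + K * b * (d * (d * d * B * (d * (d * d * μ)))) +
        K * b ^ 2 * (d * (d * d * B * (d * (d * d * B * (d * (d * d * μ)))))) :=
        add_le_add (add_le_add (add_le_add (add_le_add t1 t2) t3) t4) t5
    _ = _ := by ring

/-- the energy bounds (field `energy` of `RedHyp`) -/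
theorem red_energy (H : HC u) (hC : Cert n C Lam) (hGA : GrowthA n C)
    (hst : ∀ x ∈ Wn u, ∃ lam g : Fin n → ℝ, Adm lam g (sN u x) ∧ zN u x = zv lam g (sN u x))
    (hbd : ∀ a b : ℝ, 0 < a → ∃ B : ℝ, ∀ x ∈ Om u, x ∈ Ann (n + 1) a b →
      hs2 (D2 u x) ≤ B ∧ ‖D3 u x‖ ≤ B)
    (hP : ∀ x ∈ Om u, ‖fderiv ℝ u x‖ ≤ 1) :
    ∀ a b : ℝ, 0 < a → ∃ e : E (n + 1) → ℝ, IntegrableOn e (Wn u ∩ Ann (n + 1) a b) ∧
      ∀ x ∈ Wn u, x ∈ Ann (n + 1) a b →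
        wC C u x ^ 2 * ‖D3 u x‖ ^ 2 ≤ e x * hs2 (D2 u x) ∧
        wC C u x * ‖fderiv ℝ (wC C u) x‖ * ‖D3 u x‖ ≤ e x * Real.sqrt (hs2 (D2 u x)) ∧
        ‖XC C u x‖ * ‖D3 u x‖ ≤ e x * Real.sqrt (hs2 (D2 u x)) ∧
        wC C u x ^ 2 * ‖D3 u x‖ ≤ e x * Real.sqrt (hs2 (D2 u x)) := by
  intro a b ha
  rcases lt_or_ge b 0 with hb | hb
  · refine ⟨fun _ => 0, integrableOn_const (WS_fin _ _ _) (by simp), fun x _ hxA => ?_⟩
    exact absurd ((norm_nonneg _).trans hxA.2) (not_le.2 hb)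
  obtain ⟨B₀, hB₀⟩ := hbd a b ha
  obtain ⟨B, hB1, hBB⟩ : ∃ B : ℝ, 1 ≤ B ∧ B₀ ≤ B := ⟨max 1 B₀, le_max_left _ _, le_max_right _ _⟩
  have hB0 : 0 ≤ B := by linarith
  have hBsq : B ≤ B ^ 2 := by nlinarith
  obtain ⟨K, hK0, hK⟩ := growth_x hC hGA hst (b ^ 2 * B ^ 2)
  obtain ⟨D, hD⟩ : ∃ D : ℝ, D = ((n + 1 : ℕ) : ℝ) := ⟨_, rfl⟩
  have hD0 : 0 ≤ D := by rw [hD]; positivity
  obtain ⟨C0, hC0⟩ : ∃ C0 : ℝ, C0 = (K * (2 * B * b + 2 * D * b ^ 2 * B) +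
    K * (3 * b ^ 2 * D ^ 3 * B ^ 2 + 3 * b ^ 3 * D ^ 3 * B ^ 2) +
    (K * b) * (2 * D * (D * D * B) + 4 / a) + (K * b) * (2 / a)) := ⟨_, rfl⟩
  have hC00 : 0 ≤ C0 := by rw [hC0]; positivity
  obtain ⟨CX, hCX⟩ : ∃ CX : ℝ, CX = (K * (b ^ 2 * (D * (D * D * B)) + B * b) + K * b * a⁻¹ * 2 +
      K * (D * (D * D)) + K * b * (D * (D * D * B * (D * (D * D)))) +
      K * b ^ 2 * (D * (D * D * B * (D * (D * D * B * (D * (D * D))))))) := ⟨_, rfl⟩
  have hCX0 : 0 ≤ CX := by rw [hCX]; positivity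
  obtain ⟨e, h1e, h2e, h3e⟩ : ∃ e : ℝ, K * b ^ 2 * B ^ 2 ≤ e ∧ C0 * B ≤ e ∧ CX * B ≤ e := by
    refine ⟨K * b ^ 2 * B ^ 2 + C0 * B + CX * B, ?_, ?_, ?_⟩
    · have : 0 ≤ C0 * B := by positivity
      have : 0 ≤ CX * B := by positivity
      linarith
    · have : 0 ≤ K * b ^ 2 * B ^ 2 := by positivity
      have : 0 ≤ CX * B := by positivity
      linarith
    · have : 0 ≤ K * b ^ 2 * B ^ 2 := by positivity
      have : 0 ≤ C0 * B := by positivity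
      linarith
  refine ⟨fun _ => e, integrableOn_const (WS_fin _ _ _) (by simp), ?_⟩
  intro x hx hxA
  have hm := hs2_nonneg (D2 u x)
  obtain ⟨μ, hμ⟩ : ∃ μ : ℝ, μ = Real.sqrt (hs2 (D2 u x)) := ⟨_, rfl⟩
  have hμ0 : 0 ≤ μ := by rw [hμ]; exact Real.sqrt_nonneg _
  have hmμ : hs2 (D2 u x) = μ ^ 2 := by rw [hμ, Real.sq_sqrt hm]
  have hb1 := (hB₀ x hx.1 hxA).1
  have hb2 := (hB₀ x hx.1 hxA).2
  have hD3 : ‖D3 u x‖ ≤ B := hb2.trans hBB
  have hμB : μ ≤ B := by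
    rw [hμ]
    exact Real.sqrt_le_iff.2 ⟨hB0, hb1.trans (hBB.trans hBsq)⟩
  have hxb : ‖x‖ ≤ b := hxA.2
  obtain ⟨lam, g, hAdm, hz⟩ := hst x hx
  have hs0 : 0 ≤ sN u x := hAdm.s0
  have hs1 : sN u x ≤ 1 := by
    have h1 := hAdm.q1
    have h2 : 0 ≤ ∑ i, g i ^ 2 := Finset.sum_nonneg fun _ _ => sq_nonneg _
    nlinarith
  have hR : ‖x‖ ^ 2 * hs2 (D2 u x) ≤ b ^ 2 * B ^ 2 := by
    rw [hmμ]; gcongr
  obtain ⟨z0, z1, z2, z3, z4, z5, z6, z7, z8, z9, z10⟩ := hK x hx hR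
  rw [← hμ] at z1 z4 z5 z6
  rw [← hμ]
  have hw2 : wC C u x ^ 2 = C.Z.f (zN u x) := by
    unfold wC; rw [Real.sq_sqrt z0.le]
  have hw2' : wC C u x ^ 2 ≤ K * (b * μ) ^ 2 := by
    rw [hw2]; exact z1.trans (by gcongr)
  have g1 := wgrad_le H hC.okZ hx.1 hx.2 ha hxA.1 hxb hB1 hμ hμB hD3 (hP x hx.1) hs0 hs1 hK0
    z0 z2 z3 z4 z5
  have g2 := field_le H hx.1 ha hxA.1 hxb hB1 hμ hμB hD3 (hP x hx.1) hs0 hs1 hK0 z6 z7 z8 z9
    z10
  rw [← hD, ← hC0] at g1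
  rw [← hD, ← hCX] at g2
  refine ⟨?_, ?_, ?_, ?_⟩
  · calc wC C u x ^ 2 * ‖D3 u x‖ ^ 2 ≤ K * (b * μ) ^ 2 * B ^ 2 := by gcongr
      _ = K * b ^ 2 * B ^ 2 * μ ^ 2 := by ring
      _ ≤ e * μ ^ 2 := by gcongr
      _ = e * hs2 (D2 u x) := by rw [hmμ]
  · calc wC C u x * ‖fderiv ℝ (wC C u) x‖ * ‖D3 u x‖ ≤ C0 * μ * B := by gcongr
      _ = C0 * B * μ := by ring
      _ ≤ e * μ := by gcongr
  · calc ‖XC C u x‖ * ‖D3 u x‖ ≤ CX * μ * B := by gcongr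
      _ = CX * B * μ := by ring
      _ ≤ e * μ := by gcongr
  · calc wC C u x ^ 2 * ‖D3 u x‖ ≤ K * (b * μ) ^ 2 * B := by gcongr
      _ = K * b ^ 2 * (B * μ) * μ := by ring
      _ ≤ K * b ^ 2 * (B * B) * μ := by gcongr
      _ = K * b ^ 2 * B ^ 2 * μ := by ring
      _ ≤ e * μ := by gcongr

end Crest.Agent.R097
end

-- ▼ part R097/REnergyB
section

/-!
# Row 97: `wbd` and `energy` of `RedHyp` for certificates with growth `Z ~ |M|^{2 mu}`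
-/

set_option autoImplicit false
set_option synthInstance.maxHeartbeats 400000
open MeasureTheory Metric Set Filter Topology InnerProductSpace
open scoped RealInnerProductSpace NNReal ENNReal Gradient Laplacian

namespace Crest.Agent.R097

namespace REn

variable {d : ℕ} {u : E d → ℝ}

/-- `r^e` is bounded on `[a,b]` -/
lemma rpow_le_add {a b r : ℝ} (ha : 0 < a) (har : a ≤ r) (hrb : r ≤ b) (e : ℝ) :
    r ^ e ≤ a ^ e + b ^ e := by
  have hr : 0 < r := ha.trans_le har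
  have hb : 0 < b := hr.trans_le hrb
  have h1 : 0 ≤ a ^ e := Real.rpow_nonneg ha.le _
  have h2 : 0 ≤ b ^ e := Real.rpow_nonneg hb.le _
  rcases le_total 0 e with h | h
  · have := Real.rpow_le_rpow hr.le hrb h
    linarith
  · have := Real.rpow_le_rpow_of_nonpos ha har h
    linarith

/-- derivatives of the four arguments, with bounds which keep `‖D³u‖` -/
lemma has_z2 (H : HC u) {x : E d} (hx : x ∈ Om u) {a b B m : ℝ} (ha : 0 < a) (hax : a ≤ ‖x‖)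
    (hxb : ‖x‖ ≤ b) (hB : 1 ≤ B) (hm : m = Real.sqrt (hs2 (D2 u x))) (hmB : m ≤ B)
    (hP : ‖fderiv ℝ u x‖ ≤ 1) (hs0 : 0 ≤ sN u x) (hs1 : sN u x ≤ 1) :
    ∃ L : Fin 4 → (E d →L[ℝ] ℝ), (∀ i, HasFDerivAt (fun y => zN u y i) (L i) x) ∧
      ‖L 0‖ ≤ 2 * b * m ^ 2 + 2 * d * b ^ 2 * m * ‖D3 u x‖ ∧
      ‖L 1‖ ≤ 3 * b ^ 2 * d ^ 3 * m ^ 3 + 3 * b ^ 3 * d ^ 3 * m ^ 2 * ‖D3 u x‖ ∧
      ‖L 2‖ ≤ 2 * d * (d * d * B) + 4 / a ∧ ‖L 3‖ ≤ 2 / a := by
  have hx0 : x ≠ 0 := H.ne_zero hx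
  have hn0 : 0 < ‖x‖ := norm_pos_iff.2 hx0
  have hb0 : 0 < b := hn0.trans_le hxb
  have hm0 : 0 ≤ m := by rw [hm]; exact Real.sqrt_nonneg _
  have hmm : hs2 (D2 u x) = m ^ 2 := by rw [hm, Real.sq_sqrt (hs2_nonneg _)]
  have hT : 0 ≤ ‖D3 u x‖ := norm_nonneg _
  have hin : ‖(innerSL ℝ x : E d →L[ℝ] ℝ)‖ = ‖x‖ := by simp
  -- component 0
  have h0a : HasFDerivAt (fun y : E d => ‖y‖ ^ 2) (2 • (innerSL ℝ x)) x := by
    have := (hasStrictFDerivAt_norm_sq (F := E d) x).hasFDerivAt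
    simpa using this
  have hd2 : DifferentiableAt ℝ (D2 u) x := (H.hasD3 hx).differentiableAt
  have h0b : HasFDerivAt (fun y => hs2 (D2 u y)) (fderiv ℝ (fun y => hs2 (D2 u y)) x) x :=
    (((contDiff_hs2 (d := d)).differentiable (by simp)).differentiableAt.comp x hd2).hasFDerivAt
  have h0 : HasFDerivAt (fun y => zN u y 0)
      (‖x‖ ^ 2 • fderiv ℝ (fun y => hs2 (D2 u y)) x + hs2 (D2 u x) • (2 • (innerSL ℝ x))) x :=
    h0a.mul h0b
  have n0 : ‖‖x‖ ^ 2 • fderiv ℝ (fun y => hs2 (D2 u y)) x +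
      hs2 (D2 u x) • (2 • (innerSL ℝ x))‖ ≤ 2 * b * m ^ 2 + 2 * d * b ^ 2 * m * ‖D3 u x‖ := by
    have e1 := norm_fderiv_m_le hd2
    rw [← hm] at e1
    have e2 : ‖‖x‖ ^ 2 • fderiv ℝ (fun y => hs2 (D2 u y)) x‖ ≤
        b ^ 2 * (2 * d * m * ‖D3 u x‖) := by
      rw [norm_smul, norm_pow, norm_norm]
      gcongr
    have e3 : ‖hs2 (D2 u x) • ((2 : ℕ) • (innerSL ℝ x : E d →L[ℝ] ℝ))‖ ≤ m ^ 2 * (2 * b) := by
      rw [norm_smul, hmm, Real.norm_of_nonneg (by positivity)]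
      have : ‖(2 : ℕ) • (innerSL ℝ x : E d →L[ℝ] ℝ)‖ ≤ 2 * b := by
        rw [← Nat.cast_smul_eq_nsmul ℝ, norm_smul, hin]
        simp only [Nat.cast_ofNat, Real.norm_ofNat]
        linarith
      gcongr
    calc _ ≤ _ := norm_add_le _ _
      _ ≤ b ^ 2 * (2 * d * m * ‖D3 u x‖) + m ^ 2 * (2 * b) := add_le_add e2 e3
      _ = _ := by ring
  -- component 1
  obtain ⟨L1, h1a, h1b⟩ := has_tr3 H hx
  rw [← hm] at h1b
  have h1 : HasFDerivAt (fun y => zN u y 1)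
      (‖x‖ ^ 3 • L1 + tr3 (D2 u x) • ((3 * ‖x‖) • innerSL ℝ x)) x := (has_norm3 hx0).mul h1a
  have n1 : ‖‖x‖ ^ 3 • L1 + tr3 (D2 u x) • ((3 * ‖x‖) • (innerSL ℝ x : E d →L[ℝ] ℝ))‖ ≤
      3 * b ^ 2 * d ^ 3 * m ^ 3 + 3 * b ^ 3 * d ^ 3 * m ^ 2 * ‖D3 u x‖ := by
    have e2 : ‖‖x‖ ^ 3 • L1‖ ≤ b ^ 3 * (3 * d ^ 3 * m ^ 2 * ‖D3 u x‖) := by
      rw [norm_smul, norm_pow, norm_norm]
      gcongr
    have e3 : ‖tr3 (D2 u x) • ((3 * ‖x‖) • (innerSL ℝ x : E d →L[ℝ] ℝ))‖ ≤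
        (d ^ 3 * m ^ 3) * (3 * b * b) := by
      rw [norm_smul, norm_smul, hin, Real.norm_eq_abs, Real.norm_of_nonneg (by positivity)]
      have e4 := abs_tr3_le (D2 u x)
      rw [← hm] at e4
      gcongr
    calc _ ≤ _ := norm_add_le _ _
      _ ≤ b ^ 3 * (3 * d ^ 3 * m ^ 2 * ‖D3 u x‖) + (d ^ 3 * m ^ 3) * (3 * b * b) :=
        add_le_add e2 e3
      _ = _ := by ring
  -- component 3
  have h3 : HasFDerivAt (fun y => zN u y 3)
      (u x • ((-(‖x‖ ^ 3)⁻¹) • innerSL ℝ x) + ‖x‖⁻¹ • fderiv ℝ u x) x := by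
    have : (fun y => zN u y 3) = fun y => u y * ‖y‖⁻¹ := by
      ext y
      simp [zN, sN, div_eq_mul_inv]
    rw [this]
    exact (H.hasD1 hx).mul (has_norm_inv hx0)
  have hux : u x = sN u x * ‖x‖ := by
    unfold sN; field_simp
  have n3 : ‖u x • ((-(‖x‖ ^ 3)⁻¹) • (innerSL ℝ x : E d →L[ℝ] ℝ)) + ‖x‖⁻¹ • fderiv ℝ u x‖ ≤
      2 / a := by
    have e1 : ‖u x • ((-(‖x‖ ^ 3)⁻¹) • (innerSL ℝ x : E d →L[ℝ] ℝ))‖ ≤ 1 / a := by
      rw [norm_smul, norm_smul, hin, norm_neg, Real.norm_of_nonneg (by positivity : 0 ≤ (‖x‖ ^ 3)⁻¹),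
        hux, norm_mul, norm_norm, Real.norm_of_nonneg hs0]
      have : sN u x * ‖x‖ * ((‖x‖ ^ 3)⁻¹ * ‖x‖) = sN u x * ‖x‖⁻¹ := by
        field_simp
      rw [this, one_div]
      calc sN u x * ‖x‖⁻¹ ≤ 1 * a⁻¹ := by gcongr
        _ = a⁻¹ := one_mul _
    have e2 : ‖‖x‖⁻¹ • fderiv ℝ u x‖ ≤ 1 / a := by
      rw [norm_smul, Real.norm_of_nonneg (by positivity), one_div]
      calc ‖x‖⁻¹ * ‖fderiv ℝ u x‖ ≤ a⁻¹ * 1 := by gcongr
        _ = a⁻¹ := mul_one _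
    calc _ ≤ _ := norm_add_le _ _
      _ ≤ 1 / a + 1 / a := add_le_add e1 e2
      _ = _ := by ring
  -- component 2
  have hbl : ∀ i : Fin d, ‖(D2 u x).flip (bv i)‖ ≤ d * d * B := by
    intro i
    refine ContinuousLinearMap.opNorm_le_bound _ (by positivity) fun v => ?_
    have e1 := bil_le (D2 u x) v (bv i)
    rw [norm_bv, mul_one, ← hm] at e1
    rw [ContinuousLinearMap.flip_apply, Real.norm_eq_abs]
    refine e1.trans ?_
    gcongr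
  have h2a : HasFDerivAt (fun y => ∑ i, (fderiv ℝ u y (bv i)) ^ 2)
      (∑ i, (2 * fderiv ℝ u x (bv i)) • (D2 u x).flip (bv i)) x := by
    refine HasFDerivAt.fun_sum fun i _ => ?_
    have := (had_app1 (H.hasD2 hx) (bv i)).pow 2
    refine this.congr_fderiv ?_
    ext v
    simp
  set L3 : E d →L[ℝ] ℝ := u x • ((-(‖x‖ ^ 3)⁻¹) • innerSL ℝ x) + ‖x‖⁻¹ • fderiv ℝ u x with hL3
  have h2b : HasFDerivAt (fun y => zN u y 3 ^ 2) ((2 * zN u x 3) • L3) x := by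
    refine (h3.pow 2).congr_fderiv ?_
    ext v
    simp
  have e2 : (fun y => zN u y 2) = fun y => (∑ i, (fderiv ℝ u y (bv i)) ^ 2) - zN u y 3 ^ 2 := by
    ext y
    have : ‖∇ u y‖ ^ 2 = ∑ i, (fderiv ℝ u y (bv i)) ^ 2 := by
      rw [EuclideanSpace.norm_sq_eq]
      refine Finset.sum_congr rfl fun i _ => ?_
      rw [gradient_coord, Real.norm_eq_abs, sq_abs]
    simp [zN, qN, sN, this]
  have h2 := h2a.sub h2b
  have h2' : HasFDerivAt (fun y => zN u y 2) ((∑ i, (2 * fderiv ℝ u x (bv i)) •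
      (D2 u x).flip (bv i)) - (2 * zN u x 3) • L3) x := by
    rw [e2]; exact h2
  refine ⟨![‖x‖ ^ 2 • fderiv ℝ (fun y => hs2 (D2 u y)) x + hs2 (D2 u x) • (2 • (innerSL ℝ x)),
    ‖x‖ ^ 3 • L1 + tr3 (D2 u x) • ((3 * ‖x‖) • innerSL ℝ x),
    (∑ i, (2 * fderiv ℝ u x (bv i)) • (D2 u x).flip (bv i)) - (2 * zN u x 3) • L3, L3],
    ?_, n0, n1, ?_, n3⟩
  · intro i
    fin_cases i
    · exact h0
    · exact h1
    · exact h2'
    · exact h3
  · show ‖(∑ i, (2 * fderiv ℝ u x (bv i)) • (D2 u x).flip (bv i)) - (2 * zN u x 3) • L3‖ ≤ _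
    refine (norm_sub_le _ _).trans (add_le_add ?_ ?_)
    · calc ‖∑ i, (2 * fderiv ℝ u x (bv i)) • (D2 u x).flip (bv i)‖
          ≤ ∑ i, ‖(2 * fderiv ℝ u x (bv i)) • (D2 u x).flip (bv i)‖ := norm_sum_le _ _
        _ ≤ ∑ _i : Fin d, 2 * (d * d * B) := by
            refine Finset.sum_le_sum fun i _ => ?_
            rw [norm_smul, norm_mul, Real.norm_ofNat]
            have e3 : ‖fderiv ℝ u x (bv i)‖ ≤ 1 := by
              have := (fderiv ℝ u x).le_opNorm (bv i)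
              rw [norm_bv, mul_one] at this
              exact this.trans hP
            have e4 := hbl i
            calc 2 * ‖fderiv ℝ u x (bv i)‖ * ‖(D2 u x).flip (bv i)‖ ≤ 2 * 1 * (d * d * B) := by
                  gcongr
              _ = _ := by ring
        _ = 2 * d * (d * d * B) := by
            simp only [Finset.sum_const, Finset.card_univ, Fintype.card_fin, nsmul_eq_mul]
            ring
    · rw [norm_smul, norm_mul, Real.norm_ofNat]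
      have e5 : ‖zN u x 3‖ ≤ 1 := by
        show ‖sN u x‖ ≤ 1
        rw [Real.norm_of_nonneg hs0]; exact hs1
      calc 2 * ‖zN u x 3‖ * ‖L3‖ ≤ 2 * 1 * (2 / a) := by gcongr
        _ = 4 / a := by ring

end REn

open REn

variable {n : ℕ} {u : E (n + 1) → ℝ} {C : CertData}

/-- the growth condition at the points of an annulus, in the form `K * A * m ^ j` with
`A = m ^ (2 mu - 2)`, `m = |D²u|` -/
lemma growth_xB {mu : ℝ}
    (hG : ∀ R : ℝ, ∃ K : ℝ,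
    ∀ (lam g : Fin n → ℝ) (s : ℝ), Adm lam g s → ∑ i, lam i ^ 2 ≤ R →
      C.Z.f (zv lam g s) ≤ K * Real.sqrt (∑ i, lam i ^ 2) ^ (2 * mu) ∧
      |C.Z.d 0 (zv lam g s)| ≤ K * Real.sqrt (∑ i, lam i ^ 2) ^ (2 * mu - 2) ∧
      |C.Z.d 1 (zv lam g s)| ≤ K * Real.sqrt (∑ i, lam i ^ 2) ^ (2 * mu - 3) ∧
      |C.Z.d 2 (zv lam g s)| ≤ K * Real.sqrt (∑ i, lam i ^ 2) ^ (2 * mu) ∧
      |C.Z.d 3 (zv lam g s)| ≤ K * Real.sqrt (∑ i, lam i ^ 2) ^ (2 * mu) ∧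
      |C.y0.f (zv lam g s)| ≤ K * Real.sqrt (∑ i, lam i ^ 2) ^ (2 * mu) ∧
      |C.ga.f (zv lam g s)| ≤ K * Real.sqrt (∑ i, lam i ^ 2) ^ (2 * mu - 2) ∧
      |C.y1.f (zv lam g s)| ≤ K * Real.sqrt (∑ i, lam i ^ 2) ^ (2 * mu - 1) ∧
      |C.y2.f (zv lam g s)| ≤ K * Real.sqrt (∑ i, lam i ^ 2) ^ (2 * mu - 2) ∧
      |C.y3.f (zv lam g s)| ≤ K * Real.sqrt (∑ i, lam i ^ 2) ^ (2 * mu - 3))
    (hst : ∀ x ∈ Wn u, ∃ lam g : Fin n → ℝ, Adm lam g (sN u x) ∧ zN u x = zv lam g (sN u x))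
    {a b : ℝ} (ha : 0 < a) (R : ℝ) : ∃ K : ℝ, 0 ≤ K ∧ ∀ x ∈ Wn u, a ≤ ‖x‖ → ‖x‖ ≤ b →
      ‖x‖ ^ 2 * hs2 (D2 u x) ≤ R →
      C.Z.f (zN u x) ≤ K * hs2 (D2 u x) ^ (mu - 1) * Real.sqrt (hs2 (D2 u x)) ^ 2 ∧
      |C.Z.d 0 (zN u x)| ≤ K * hs2 (D2 u x) ^ (mu - 1) ∧
      |C.Z.d 1 (zN u x)| * Real.sqrt (hs2 (D2 u x)) ≤ K * hs2 (D2 u x) ^ (mu - 1) ∧
      |C.Z.d 2 (zN u x)| ≤ K * hs2 (D2 u x) ^ (mu - 1) * Real.sqrt (hs2 (D2 u x)) ^ 2 ∧
      |C.Z.d 3 (zN u x)| ≤ K * hs2 (D2 u x) ^ (mu - 1) * Real.sqrt (hs2 (D2 u x)) ^ 2 ∧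
      |C.y0.f (zN u x)| ≤ K * hs2 (D2 u x) ^ (mu - 1) * Real.sqrt (hs2 (D2 u x)) ^ 2 ∧
      |C.ga.f (zN u x)| ≤ K * hs2 (D2 u x) ^ (mu - 1) ∧
      |C.y1.f (zN u x)| ≤ K * hs2 (D2 u x) ^ (mu - 1) * Real.sqrt (hs2 (D2 u x)) ∧
      |C.y2.f (zN u x)| ≤ K * hs2 (D2 u x) ^ (mu - 1) ∧
      |C.y3.f (zN u x)| * Real.sqrt (hs2 (D2 u x)) ≤ K * hs2 (D2 u x) ^ (mu - 1) := by
  obtain ⟨K, hK⟩ := hG R
  set G : ℝ := (a ^ (2 * mu) + b ^ (2 * mu)) + (a ^ (2 * mu - 1) + b ^ (2 * mu - 1)) +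
    (a ^ (2 * mu - 2) + b ^ (2 * mu - 2)) + (a ^ (2 * mu - 3) + b ^ (2 * mu - 3)) with hGdef
  rcases lt_or_ge b a with hba | hab
  · exact ⟨0, le_rfl, fun x _ h1 h2 => absurd (h1.trans h2) (not_le.2 hba)⟩
  have hb : 0 < b := ha.trans_le hab
  have hnn : ∀ e : ℝ, 0 ≤ a ^ e + b ^ e := fun e =>
    add_nonneg (Real.rpow_nonneg ha.le _) (Real.rpow_nonneg hb.le _)
  have hG0 : 0 ≤ G := by
    have := hnn (2 * mu); have := hnn (2 * mu - 1); have := hnn (2 * mu - 2)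
    have := hnn (2 * mu - 3)
    rw [hGdef]; positivity
  refine ⟨max K 0 * G, by positivity, fun x hx h1 h2 hR => ?_⟩
  obtain ⟨lam, g, hA, hz⟩ := hst x hx
  have hP : 0 < hs2 (D2 u x) := hx.2
  have h0 : ∑ i, lam i ^ 2 = ‖x‖ ^ 2 * hs2 (D2 u x) := by
    have := congrFun hz 0
    simpa [zN, zv] using this.symm
  have hk := hK lam g (sN u x) hA (by rw [h0]; exact hR)
  rw [← hz, h0] at hk
  have hr0 : 0 < ‖x‖ := ha.trans_le h1
  have hs : Real.sqrt (‖x‖ ^ 2 * hs2 (D2 u x)) = ‖x‖ * Real.sqrt (hs2 (D2 u x)) := by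
    rw [Real.sqrt_mul (by positivity), Real.sqrt_sq (norm_nonneg _)]
  rw [hs] at hk
  set m := Real.sqrt (hs2 (D2 u x)) with hm
  have hm0 : 0 < m := Real.sqrt_pos.2 hP
  have hmP : hs2 (D2 u x) = m ^ 2 := by rw [hm, Real.sq_sqrt hP.le]
  have hA1 : hs2 (D2 u x) ^ (mu - 1) = m ^ (2 * mu - 2) := by
    rw [hmP, ← Real.rpow_natCast, ← Real.rpow_mul hm0.le]
    congr 1; push_cast; ring
  have hKm : K ≤ max K 0 := le_max_left _ _
  have hK0 : 0 ≤ max K 0 := le_max_right _ _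
  have key : ∀ e : ℝ, (a ^ e + b ^ e) ≤ G → (‖x‖ * m) ^ e ≤ G * m ^ e := by
    intro e he
    rw [Real.mul_rpow hr0.le hm0.le]
    have := (rpow_le_add ha h1 h2 e).trans he
    have hme : 0 ≤ m ^ e := Real.rpow_nonneg hm0.le _
    gcongr
  have g0 : a ^ (2 * mu) + b ^ (2 * mu) ≤ G := by
    have := hnn (2 * mu - 1); have := hnn (2 * mu - 2); have := hnn (2 * mu - 3)
    rw [hGdef]; linarith
  have g1 : a ^ (2 * mu - 1) + b ^ (2 * mu - 1) ≤ G := by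
    have := hnn (2 * mu); have := hnn (2 * mu - 2); have := hnn (2 * mu - 3)
    rw [hGdef]; linarith
  have g2 : a ^ (2 * mu - 2) + b ^ (2 * mu - 2) ≤ G := by
    have := hnn (2 * mu); have := hnn (2 * mu - 1); have := hnn (2 * mu - 3)
    rw [hGdef]; linarith
  have g3 : a ^ (2 * mu - 3) + b ^ (2 * mu - 3) ≤ G := by
    have := hnn (2 * mu); have := hnn (2 * mu - 1); have := hnn (2 * mu - 2)
    rw [hGdef]; linarith
  have gen : ∀ (v e : ℝ), v ≤ K * (‖x‖ * m) ^ e → (a ^ e + b ^ e) ≤ G →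
      v ≤ max K 0 * G * m ^ e := by
    intro v e hv he
    have h3 := key e he
    have h4 : 0 ≤ (‖x‖ * m) ^ e := Real.rpow_nonneg (by positivity) _
    calc v ≤ K * (‖x‖ * m) ^ e := hv
      _ ≤ max K 0 * (‖x‖ * m) ^ e := by gcongr
      _ ≤ max K 0 * (G * m ^ e) := by gcongr
      _ = _ := by ring
  have p0 : m ^ (2 * mu) = m ^ (2 * mu - 2) * m ^ 2 := by
    rw [← Real.rpow_natCast m 2, ← Real.rpow_add hm0]
    congr 1; push_cast; ring
  have p1 : m ^ (2 * mu - 1) = m ^ (2 * mu - 2) * m := by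
    nth_rewrite 3 [← Real.rpow_one m]
    rw [← Real.rpow_add hm0]
    congr 1; ring
  have p3 : m ^ (2 * mu - 3) * m = m ^ (2 * mu - 2) := by
    nth_rewrite 2 [← Real.rpow_one m]
    rw [← Real.rpow_add hm0]
    congr 1; ring
  obtain ⟨a1, a2, a3, a4, a5, a6, a7, a8, a9, a10⟩ := hk
  rw [hA1]
  refine ⟨?_, gen _ _ a2 g2, ?_, ?_, ?_, ?_, gen _ _ a7 g2, ?_, gen _ _ a9 g2, ?_⟩
  · have := gen _ _ a1 g0
    rw [p0] at this; linarith
  · have := gen _ _ a3 g3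
    calc _ ≤ (max K 0 * G * m ^ (2 * mu - 3)) * m := by gcongr
      _ = max K 0 * G * (m ^ (2 * mu - 3) * m) := by ring
      _ = _ := by rw [p3]
  · have := gen _ _ a4 g0
    rw [p0] at this; linarith
  · have := gen _ _ a5 g0
    rw [p0] at this; linarith
  · have := gen _ _ a6 g0
    rw [p0] at this; linarith
  · have := gen _ _ a8 g1
    rw [p1] at this; linarith
  · have := gen _ _ a10 g3
    calc _ ≤ (max K 0 * G * m ^ (2 * mu - 3)) * m := by gcongr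
      _ = max K 0 * G * (m ^ (2 * mu - 3) * m) := by ring
      _ = _ := by rw [p3]

/-- pointwise bound of the gradient of the test function -/
lemma wgradB_le {d : ℕ} {u : E d → ℝ} (H : HC u) (okZ : C.Z.Ok) {x : E d} (hx : x ∈ Om u)
    (hx2 : 0 < hs2 (D2 u x)) {a b B m K A : ℝ} (ha : 0 < a) (hax : a ≤ ‖x‖)
    (hxb : ‖x‖ ≤ b) (hB : 1 ≤ B) (hm : m = Real.sqrt (hs2 (D2 u x))) (hmB : m ≤ B)
    (hP : ‖fderiv ℝ u x‖ ≤ 1) (hs0 : 0 ≤ sN u x) (hs1 : sN u x ≤ 1)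
    (hK : 0 ≤ K) (hA : 0 ≤ A) (z0 : 0 < C.Z.f (zN u x)) (z2 : |C.Z.d 0 (zN u x)| ≤ K * A)
    (z3 : |C.Z.d 1 (zN u x)| * m ≤ K * A) (z4 : |C.Z.d 2 (zN u x)| ≤ K * A * m ^ 2)
    (z5 : |C.Z.d 3 (zN u x)| ≤ K * A * m ^ 2) :
    wC C u x * ‖fderiv ℝ (wC C u) x‖ ≤
      K * (2 * b + 2 * d * b ^ 2 + (3 * b ^ 2 * d ^ 3 + 3 * b ^ 3 * d ^ 3) +
        (2 * d * (d * d * B) + 4 / a) + 2 / a) * (A * (m ^ 2 + m * ‖D3 u x‖)) := by
  have hn0 : 0 < ‖x‖ := norm_pos_iff.2 (H.ne_zero hx)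
  have hb0 : 0 < b := hn0.trans_le hxb
  have hm0 : 0 ≤ m := by rw [hm]; exact Real.sqrt_nonneg _
  have hT : 0 ≤ ‖D3 u x‖ := norm_nonneg _
  obtain ⟨L, hL, n0, n1, n2, n3⟩ := has_z2 H hx ha hax hxb hB hm hmB hP hs0 hs1
  have hzf : HasFDerivAt (zN u) (ContinuousLinearMap.pi L) x := hasFDerivAt_pi.2 hL
  have hz00 : 0 < zN u x 0 := by
    show 0 < ‖x‖ ^ 2 * hs2 (D2 u x)
    positivity
  have hZ : HasFDerivAt (fun y => C.Z.f (zN u y)) (∑ i, C.Z.d i (zN u x) • L i) x := by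
    have := (okZ.has (zN u x) hz00).comp x hzf
    refine this.congr_fderiv ?_
    ext v
    simp
  have hw : HasFDerivAt (wC C u) ((1 / (2 * Real.sqrt (C.Z.f (zN u x)))) •
      (∑ i, C.Z.d i (zN u x) • L i)) x := hZ.sqrt z0.ne'
  rw [hw.fderiv, norm_smul]
  have hsq : 0 < Real.sqrt (C.Z.f (zN u x)) := Real.sqrt_pos.2 z0
  have e1 : wC C u x * (‖1 / (2 * Real.sqrt (C.Z.f (zN u x)))‖ * ‖∑ i, C.Z.d i (zN u x) • L i‖) =
      ‖∑ i, C.Z.d i (zN u x) • L i‖ / 2 := by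
    rw [Real.norm_of_nonneg (by positivity)]
    unfold wC
    field_simp
  rw [e1]
  have e2 : ‖∑ i, C.Z.d i (zN u x) • L i‖ ≤ ∑ i, |C.Z.d i (zN u x)| * ‖L i‖ := by
    refine (norm_sum_le _ _).trans (Finset.sum_le_sum fun i _ => ?_)
    rw [norm_smul, Real.norm_eq_abs]
  rw [Fin.sum_univ_four (fun i => |C.Z.d i (zN u x)| * ‖L i‖)] at e2
  have e3 : |C.Z.d 0 (zN u x)| * ‖L 0‖ ≤
      (K * A) * (2 * b * m ^ 2 + 2 * d * b ^ 2 * m * ‖D3 u x‖) := by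
    have : 0 ≤ K * A := by positivity
    gcongr
  have e4 : |C.Z.d 1 (zN u x)| * ‖L 1‖ ≤
      (K * A) * (3 * b ^ 2 * d ^ 3 * m ^ 2 + 3 * b ^ 3 * d ^ 3 * m * ‖D3 u x‖) := by
    calc |C.Z.d 1 (zN u x)| * ‖L 1‖ ≤ |C.Z.d 1 (zN u x)| *
          (3 * b ^ 2 * d ^ 3 * m ^ 3 + 3 * b ^ 3 * d ^ 3 * m ^ 2 * ‖D3 u x‖) := by gcongr
      _ = (|C.Z.d 1 (zN u x)| * m) *
          (3 * b ^ 2 * d ^ 3 * m ^ 2 + 3 * b ^ 3 * d ^ 3 * m * ‖D3 u x‖) := by ring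
      _ ≤ _ := by gcongr
  have e5 : |C.Z.d 2 (zN u x)| * ‖L 2‖ ≤ (K * A * m ^ 2) * (2 * d * (d * d * B) + 4 / a) := by
    gcongr
  have e6 : |C.Z.d 3 (zN u x)| * ‖L 3‖ ≤ (K * A * m ^ 2) * (2 / a) := by
    gcongr
  have e7 : 0 ≤ ‖∑ i, C.Z.d i (zN u x) • L i‖ := norm_nonneg _
  have hKA : 0 ≤ K * A := by positivity
  have q1 : 0 ≤ K * A * (2 * b * (m * ‖D3 u x‖)) := by positivity
  have q2 : 0 ≤ K * A * (2 * d * b ^ 2 * m ^ 2) := by positivity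
  have q3 : 0 ≤ K * A * (3 * b ^ 2 * d ^ 3 * (m * ‖D3 u x‖)) := by positivity
  have q4 : 0 ≤ K * A * (3 * b ^ 3 * d ^ 3 * m ^ 2) := by positivity
  have q5 : 0 ≤ K * A * (m * ‖D3 u x‖) * (2 * d * (d * d * B) + 4 / a) := by positivity
  have q6 : 0 ≤ K * A * (m * ‖D3 u x‖) * (2 / a) := by positivity
  calc ‖∑ i, C.Z.d i (zN u x) • L i‖ / 2 ≤ ‖∑ i, C.Z.d i (zN u x) • L i‖ := by linarith
    _ ≤ _ := e2
    _ ≤ (K * A) * (2 * b * m ^ 2 + 2 * d * b ^ 2 * m * ‖D3 u x‖) +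
        (K * A) * (3 * b ^ 2 * d ^ 3 * m ^ 2 + 3 * b ^ 3 * d ^ 3 * m * ‖D3 u x‖) +
        (K * A * m ^ 2) * (2 * d * (d * d * B) + 4 / a) + (K * A * m ^ 2) * (2 / a) :=
        add_le_add (add_le_add (add_le_add e3 e4) e5) e6
    _ ≤ ((K * A) * (2 * b * m ^ 2 + 2 * d * b ^ 2 * m * ‖D3 u x‖) +
        (K * A) * (3 * b ^ 2 * d ^ 3 * m ^ 2 + 3 * b ^ 3 * d ^ 3 * m * ‖D3 u x‖) +
        (K * A * m ^ 2) * (2 * d * (d * d * B) + 4 / a) + (K * A * m ^ 2) * (2 / a)) +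
        (K * A * (2 * b * (m * ‖D3 u x‖)) + K * A * (2 * d * b ^ 2 * m ^ 2) +
        K * A * (3 * b ^ 2 * d ^ 3 * (m * ‖D3 u x‖)) + K * A * (3 * b ^ 3 * d ^ 3 * m ^ 2) +
        K * A * (m * ‖D3 u x‖) * (2 * d * (d * d * B) + 4 / a) +
        K * A * (m * ‖D3 u x‖) * (2 / a)) := by linarith
    _ = _ := by ring

/-- pointwise bound of the field -/
lemma fieldB_le {d : ℕ} {u : E d → ℝ} (H : HC u) {x : E d} (hx : x ∈ Om u)
    {a b m K A : ℝ} (ha : 0 < a) (hax : a ≤ ‖x‖)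
    (hxb : ‖x‖ ≤ b) (hm : m = Real.sqrt (hs2 (D2 u x)))
    (hP : ‖fderiv ℝ u x‖ ≤ 1) (hs1 : sN u x ≤ 1)
    (hK : 0 ≤ K) (hA : 0 ≤ A) (z6 : |C.y0.f (zN u x)| ≤ K * A * m ^ 2)
    (z7 : |C.ga.f (zN u x)| ≤ K * A) (z8 : |C.y1.f (zN u x)| ≤ K * A * m)
    (z9 : |C.y2.f (zN u x)| ≤ K * A) (z10 : |C.y3.f (zN u x)| * m ≤ K * A) :
    ‖XC C u x‖ ≤ K * (b ^ 2 * (d * (d * d)) + b + a⁻¹ * 2 + d * (d * d) +
      b * (d * (d * d * (d * (d * d)))) + b ^ 2 * (d * (d * d * (d * (d * d * (d * (d * d))))))) *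
      (A * (m ^ 2 + m * ‖D3 u x‖)) := by
  have hn0 : 0 < ‖x‖ := norm_pos_iff.2 (H.ne_zero hx)
  have hb0 : 0 < b := hn0.trans_le hxb
  have hm0 : 0 ≤ m := by rw [hm]; exact Real.sqrt_nonneg _
  have hT : 0 ≤ ‖D3 u x‖ := norm_nonneg _
  have hmm : hs2 (D2 u x) = m ^ 2 := by rw [hm, Real.sq_sqrt (hs2_nonneg _)]
  have hg : ‖∇ u x‖ ≤ 1 := by rw [norm_gradient]; exact hP
  have hKA : 0 ≤ K * A := by positivity
  have hW : ‖W1f u x‖ ≤ b ^ 2 * (d * (d * d)) * (m * ‖D3 u x‖) + b * m ^ 2 := by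
    have e1 := norm_TM_le (D2 u x) (D3 u x)
    rw [← hm] at e1
    have e2 : ‖‖x‖ ^ 2 • TM (D2 u x) (D3 u x)‖ ≤ b ^ 2 * (d * (d * d * (‖D3 u x‖ * m))) := by
      rw [norm_smul, norm_pow, norm_norm]
      gcongr
    have e3 : ‖hs2 (D2 u x) • x‖ ≤ m ^ 2 * b := by
      rw [norm_smul, hmm, Real.norm_of_nonneg (by positivity)]
      gcongr
    unfold W1f
    calc _ ≤ _ := norm_add_le _ _
      _ ≤ b ^ 2 * (d * (d * d * (‖D3 u x‖ * m))) + m ^ 2 * b := add_le_add e2 e3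
      _ = _ := by ring
  have hG : ‖gN u x‖ ≤ 2 := by
    unfold gN
    have e1 : ‖(u x / ‖x‖ ^ 2) • x‖ ≤ 1 := by
      rw [norm_smul]
      have hux : 0 < u x := hx
      rw [Real.norm_of_nonneg (by positivity)]
      have : u x / ‖x‖ ^ 2 * ‖x‖ = sN u x := by
        unfold sN; field_simp
      rw [this]; exact hs1
    calc _ ≤ _ := norm_sub_le _ _
      _ ≤ 1 + 1 := add_le_add hg e1
      _ = 2 := by norm_num
  have hZf : ‖Zf u x‖ ≤ d * (d * d * m) := by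
    unfold Zf
    have := norm_act_le (D2 u x) (∇ u x)
    rw [← hm] at this
    calc _ ≤ _ := this
      _ ≤ d * (d * d * m * 1) := by gcongr
      _ = _ := by ring
  have hZ2 : ‖act (D2 u x) (Zf u x)‖ ≤ d * (d * d * m * (d * (d * d * m))) := by
    have := norm_act_le (D2 u x) (Zf u x)
    rw [← hm] at this
    exact this.trans (by gcongr)
  have hZ3 : ‖act (D2 u x) (act (D2 u x) (Zf u x))‖ ≤
      d * (d * d * m * (d * (d * d * m * (d * (d * d * m))))) := by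
    have := norm_act_le (D2 u x) (act (D2 u x) (Zf u x))
    rw [← hm] at this
    exact this.trans (by gcongr)
  have t1 : ‖C.ga.f (zN u x) • W1f u x‖ ≤
      (K * A) * (b ^ 2 * (d * (d * d)) * (m * ‖D3 u x‖) + b * m ^ 2) := by
    rw [norm_smul, Real.norm_eq_abs]; gcongr
  have t2 : ‖(C.y0.f (zN u x) * ‖x‖⁻¹) • gN u x‖ ≤ (K * A * m ^ 2) * a⁻¹ * 2 := by
    rw [norm_smul, norm_mul, norm_inv, norm_norm, Real.norm_eq_abs]
    gcongr
  have t3 : ‖C.y1.f (zN u x) • Zf u x‖ ≤ (K * A * m) * (d * (d * d * m)) := by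
    rw [norm_smul, Real.norm_eq_abs]; gcongr
  have t4 : ‖(C.y2.f (zN u x) * ‖x‖) • act (D2 u x) (Zf u x)‖ ≤
      (K * A) * b * (d * (d * d * m * (d * (d * d * m)))) := by
    rw [norm_smul, norm_mul, norm_norm, Real.norm_eq_abs]; gcongr
  have t5 : ‖(C.y3.f (zN u x) * ‖x‖ ^ 2) • act (D2 u x) (act (D2 u x) (Zf u x))‖ ≤
      (K * A) * b ^ 2 * (d * (d * d * (d * (d * d * m * (d * (d * d * m)))))) := by
    rw [norm_smul, norm_mul, norm_pow, norm_norm, Real.norm_eq_abs]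
    calc |C.y3.f (zN u x)| * ‖x‖ ^ 2 * ‖act (D2 u x) (act (D2 u x) (Zf u x))‖
        ≤ |C.y3.f (zN u x)| * b ^ 2 * (d * (d * d * m * (d * (d * d * m * (d * (d * d * m)))))) := by
          gcongr
      _ = (|C.y3.f (zN u x)| * m) * b ^ 2 *
          (d * (d * d * (d * (d * d * m * (d * (d * d * m)))))) := by ring
      _ ≤ _ := by gcongr
  unfold XC
  have q1 : 0 ≤ K * A * (b ^ 2 * (d * (d * d)) * m ^ 2) := by positivity
  have q2 : 0 ≤ K * A * (b * (m * ‖D3 u x‖)) := by positivity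
  have q3 : 0 ≤ K * A * (m * ‖D3 u x‖) * a⁻¹ * 2 := by positivity
  have q4 : 0 ≤ K * A * (m * ‖D3 u x‖) * (d * (d * d)) := by positivity
  have q5 : 0 ≤ K * A * (m * ‖D3 u x‖) * (b * (d * (d * d * (d * (d * d))))) := by positivity
  have q6 : 0 ≤ K * A * (m * ‖D3 u x‖) *
      (b ^ 2 * (d * (d * d * (d * (d * d * (d * (d * d))))))) := by positivity
  calc _ ≤ ‖C.ga.f (zN u x) • W1f u x‖ + ‖(C.y0.f (zN u x) * ‖x‖⁻¹) • gN u x‖ +
        ‖C.y1.f (zN u x) • Zf u x‖ + ‖(C.y2.f (zN u x) * ‖x‖) • act (D2 u x) (Zf u x)‖ +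
        ‖(C.y3.f (zN u x) * ‖x‖ ^ 2) • act (D2 u x) (act (D2 u x) (Zf u x))‖ :=
        (norm_add_le _ _).trans (add_le_add_left ((norm_add_le _ _).trans
          (add_le_add_left ((norm_add_le _ _).trans
          (add_le_add_left (norm_add_le _ _) _)) _)) _)
    _ ≤ (K * A) * (b ^ 2 * (d * (d * d)) * (m * ‖D3 u x‖) + b * m ^ 2) +
        (K * A * m ^ 2) * a⁻¹ * 2 + (K * A * m) * (d * (d * d * m)) +
        (K * A) * b * (d * (d * d * m * (d * (d * d * m)))) +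
        (K * A) * b ^ 2 * (d * (d * d * (d * (d * d * m * (d * (d * d * m)))))) :=
        add_le_add (add_le_add (add_le_add (add_le_add t1 t2) t3) t4) t5
    _ ≤ ((K * A) * (b ^ 2 * (d * (d * d)) * (m * ‖D3 u x‖) + b * m ^ 2) +
        (K * A * m ^ 2) * a⁻¹ * 2 + (K * A * m) * (d * (d * d * m)) +
        (K * A) * b * (d * (d * d * m * (d * (d * d * m)))) +
        (K * A) * b ^ 2 * (d * (d * d * (d * (d * d * m * (d * (d * d * m))))))) +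
        (K * A * (b ^ 2 * (d * (d * d)) * m ^ 2) + K * A * (b * (m * ‖D3 u x‖)) +
        K * A * (m * ‖D3 u x‖) * a⁻¹ * 2 + K * A * (m * ‖D3 u x‖) * (d * (d * d)) +
        K * A * (m * ‖D3 u x‖) * (b * (d * (d * d * (d * (d * d))))) +
        K * A * (m * ‖D3 u x‖) *
          (b ^ 2 * (d * (d * d * (d * (d * d * (d * (d * d)))))))) := by linarith
    _ = _ := by ring

/-- `wbd` under `GrowthB` -/
theorem red_wbdB (hn : 1 ≤ n) (hG : GrowthB n C)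
    (hst : ∀ x ∈ Wn u, ∃ lam g : Fin n → ℝ, Adm lam g (sN u x) ∧ zN u x = zv lam g (sN u x))
    (hbd : ∀ a b : ℝ, 0 < a → ∃ B : ℝ, ∀ x ∈ Om u, x ∈ Ann (n + 1) a b →
      hs2 (D2 u x) ≤ B ∧ ‖D3 u x‖ ≤ B) :
    ∀ a b : ℝ, 0 < a → ∃ C' : ℝ, ∀ x ∈ Wn u, x ∈ Ann (n + 1) a b → wC C u x ≤ C' := by
  intro a b ha
  obtain ⟨mu, hmu, hmu1, hG'⟩ := hG
  have hmu0 : 0 ≤ mu := by
    have h1 : (1 : ℝ) ≤ n := by exact_mod_cast hn
    have : 0 ≤ ((n : ℝ) - 1) / (2 * (n + 1)) := div_nonneg (by linarith) (by linarith)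
    linarith
  obtain ⟨B, hB⟩ := hbd a b ha
  obtain ⟨K, hK0, hK⟩ := growth_xB hG' hst (b := b) ha (b ^ 2 * B)
  refine ⟨Real.sqrt (K * (max 1 B)), fun x hx hxA => ?_⟩
  have h1 := (hB x hx.1 hxA).1
  have hP : 0 < hs2 (D2 u x) := hx.2
  have h2 : ‖x‖ ^ 2 * hs2 (D2 u x) ≤ b ^ 2 * B := by
    have := hxA.2
    gcongr
  have h3 := (hK x hx hxA.1 hxA.2 h2).1
  have h4 : hs2 (D2 u x) ^ (mu - 1) * Real.sqrt (hs2 (D2 u x)) ^ 2 = hs2 (D2 u x) ^ mu := by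
    rw [Real.sq_sqrt hP.le]
    nth_rewrite 2 [← Real.rpow_one (hs2 (D2 u x))]
    rw [← Real.rpow_add hP]
    congr 1; ring
  have h5 : hs2 (D2 u x) ^ mu ≤ max 1 B := by
    calc hs2 (D2 u x) ^ mu ≤ (max 1 B) ^ mu :=
          Real.rpow_le_rpow hP.le (h1.trans (le_max_right _ _)) hmu0
      _ ≤ (max 1 B) ^ (1 : ℝ) := Real.rpow_le_rpow_of_exponent_le (le_max_left _ _) hmu1
      _ = max 1 B := Real.rpow_one _
  unfold wC
  refine Real.sqrt_le_sqrt (h3.trans ?_)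
  rw [mul_assoc, h4]
  gcongr

set_option maxHeartbeats 600000 in
/-- `energy` under `GrowthB`; `hE` is the weighted energy bound (`energy_fin`) -/
theorem red_energyB' (hn : 1 ≤ n) (H : HC u) (okZ : C.Z.Ok)
    (hZp : ∀ x ∈ Wn u, 0 < C.Z.f (zN u x)) (hG : GrowthB n C)
    (hst : ∀ x ∈ Wn u, ∃ lam g : Fin n → ℝ, Adm lam g (sN u x) ∧ zN u x = zv lam g (sN u x))
    (hbd : ∀ a b : ℝ, 0 < a → ∃ B : ℝ, ∀ x ∈ Om u, x ∈ Ann (n + 1) a b →
      hs2 (D2 u x) ≤ B ∧ ‖D3 u x‖ ≤ B)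
    (hP : ∀ x ∈ Om u, ‖fderiv ℝ u x‖ ≤ 1)
    (hE : ∀ mu : ℝ, ((n : ℝ) - 1) / (2 * (n + 1)) < mu → mu ≤ 1 → ∀ a b : ℝ, 0 < a →
      IntegrableOn (fun x => (hs2 (D2 u x)) ^ (mu - 1) * ‖D3 u x‖ ^ 2) (Wn u ∩ Ann (n + 1) a b)) :
    ∀ a b : ℝ, 0 < a → ∃ e : E (n + 1) → ℝ, IntegrableOn e (Wn u ∩ Ann (n + 1) a b) ∧
      ∀ x ∈ Wn u, x ∈ Ann (n + 1) a b →
        wC C u x ^ 2 * ‖D3 u x‖ ^ 2 ≤ e x * hs2 (D2 u x) ∧
        wC C u x * ‖fderiv ℝ (wC C u) x‖ * ‖D3 u x‖ ≤ e x * Real.sqrt (hs2 (D2 u x)) ∧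
        ‖XC C u x‖ * ‖D3 u x‖ ≤ e x * Real.sqrt (hs2 (D2 u x)) ∧
        wC C u x ^ 2 * ‖D3 u x‖ ≤ e x * Real.sqrt (hs2 (D2 u x)) := by
  intro a b ha
  rcases lt_or_ge b 0 with hb | hb
  · refine ⟨fun _ => 0, integrableOn_const (WS_fin _ _ _) (by simp), fun x _ hxA => ?_⟩
    exact absurd ((norm_nonneg _).trans hxA.2) (not_le.2 hb)
  obtain ⟨mu, hmu, hmu1, hG'⟩ := hG
  have hmu0 : 0 ≤ mu := by
    have h1 : (1 : ℝ) ≤ n := by exact_mod_cast hn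
    have : 0 ≤ ((n : ℝ) - 1) / (2 * (n + 1)) := div_nonneg (by linarith) (by linarith)
    linarith
  obtain ⟨B₀, hB₀⟩ := hbd a b ha
  obtain ⟨B, hB1, hBB⟩ : ∃ B : ℝ, 1 ≤ B ∧ B₀ ≤ B := ⟨max 1 B₀, le_max_left _ _, le_max_right _ _⟩
  have hB0 : 0 ≤ B := by linarith
  have hBsq : B ≤ B ^ 2 := by nlinarith
  obtain ⟨K, hK0, hK⟩ := growth_xB hG' hst (b := b) ha (b ^ 2 * B ^ 2)
  obtain ⟨D, hD⟩ : ∃ D : ℝ, D = ((n + 1 : ℕ) : ℝ) := ⟨_, rfl⟩
  have hD0 : 0 ≤ D := by rw [hD]; positivity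
  obtain ⟨C0, hC0⟩ : ∃ C0 : ℝ, C0 = K * (2 * b + 2 * D * b ^ 2 +
      (3 * b ^ 2 * D ^ 3 + 3 * b ^ 3 * D ^ 3) +
        (2 * D * (D * D * B) + 4 / a) + 2 / a) := ⟨_, rfl⟩
  have hC00 : 0 ≤ C0 := by rw [hC0]; positivity
  obtain ⟨CX, hCX⟩ : ∃ CX : ℝ, CX = K * (b ^ 2 * (D * (D * D)) + b + a⁻¹ * 2 + D * (D * D) +
      b * (D * (D * D * (D * (D * D)))) +
      b ^ 2 * (D * (D * D * (D * (D * D * (D * (D * D))))))) := ⟨_, rfl⟩
  have hCX0 : 0 ≤ CX := by rw [hCX]; positivity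
  obtain ⟨Q, hQK, hQ0, hQX⟩ : ∃ Q : ℝ, K ≤ Q ∧ 2 * C0 ≤ Q ∧ 2 * CX ≤ Q :=
    ⟨K + 2 * C0 + 2 * CX, by linarith, by linarith, by linarith⟩
  have hQn : 0 ≤ Q := hK0.trans hQK
  refine ⟨fun x => Q * ((hs2 (D2 u x)) ^ (mu - 1) * ‖D3 u x‖ ^ 2 + B ^ 2), ?_, ?_⟩
  · refine Integrable.const_mul ((hE mu hmu hmu1 a b ha).add ?_) Q
    exact integrableOn_const (WS_fin _ _ _) (by simp)
  intro x hx hxA
  have hPp : 0 < hs2 (D2 u x) := hx.2
  obtain ⟨m, hm⟩ : ∃ m : ℝ, m = Real.sqrt (hs2 (D2 u x)) := ⟨_, rfl⟩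
  have hm0 : 0 < m := by rw [hm]; exact Real.sqrt_pos.2 hPp
  have hmm : hs2 (D2 u x) = m ^ 2 := by rw [hm, Real.sq_sqrt hPp.le]
  have hb1 := (hB₀ x hx.1 hxA).1
  have hmB : m ≤ B := by
    rw [hm]
    exact Real.sqrt_le_iff.2 ⟨hB0, hb1.trans (hBB.trans hBsq)⟩
  have hxb : ‖x‖ ≤ b := hxA.2
  obtain ⟨lam, g, hAdm, hz⟩ := hst x hx
  have hs0 : 0 ≤ sN u x := hAdm.s0
  have hs1 : sN u x ≤ 1 := by
    have h1 := hAdm.q1
    have h2 : 0 ≤ ∑ i, g i ^ 2 := Finset.sum_nonneg fun _ _ => sq_nonneg _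
    nlinarith
  have hR : ‖x‖ ^ 2 * hs2 (D2 u x) ≤ b ^ 2 * B ^ 2 := by
    rw [hmm]; gcongr
  obtain ⟨z1, z2, z3, z4, z5, z6, z7, z8, z9, z10⟩ := hK x hx hxA.1 hxA.2 hR
  have z0 := hZp x hx
  rw [← hm] at z1 z3 z4 z5 z6 z8 z10
  obtain ⟨A, hA⟩ : ∃ A : ℝ, A = hs2 (D2 u x) ^ (mu - 1) := ⟨_, rfl⟩
  have hA0 : 0 ≤ A := by rw [hA]; exact Real.rpow_nonneg hPp.le _
  have hAm : A * m ^ 2 ≤ B ^ 2 := by
    have h4 : A * m ^ 2 = hs2 (D2 u x) ^ mu := by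
      rw [hA, ← hmm]
      nth_rewrite 2 [← Real.rpow_one (hs2 (D2 u x))]
      rw [← Real.rpow_add hPp]
      congr 1; ring
    rw [h4]
    calc hs2 (D2 u x) ^ mu ≤ (B ^ 2) ^ mu :=
          Real.rpow_le_rpow hPp.le (hb1.trans (hBB.trans hBsq)) hmu0
      _ ≤ (B ^ 2) ^ (1 : ℝ) := Real.rpow_le_rpow_of_exponent_le (hB1.trans hBsq) hmu1
      _ = B ^ 2 := Real.rpow_one _
  rw [← hA] at z1 z2 z3 z4 z5 z6 z7 z8 z9 z10
  rw [← hm]
  show _ ≤ Q * (hs2 (D2 u x) ^ (mu - 1) * ‖D3 u x‖ ^ 2 + B ^ 2) * hs2 (D2 u x) ∧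
    _ ≤ Q * (hs2 (D2 u x) ^ (mu - 1) * ‖D3 u x‖ ^ 2 + B ^ 2) * m ∧
    _ ≤ Q * (hs2 (D2 u x) ^ (mu - 1) * ‖D3 u x‖ ^ 2 + B ^ 2) * m ∧
    _ ≤ Q * (hs2 (D2 u x) ^ (mu - 1) * ‖D3 u x‖ ^ 2 + B ^ 2) * m
  rw [← hA, hmm]
  have hw2 : wC C u x ^ 2 = C.Z.f (zN u x) := by
    unfold wC; rw [Real.sq_sqrt z0.le]
  have hw2' : wC C u x ^ 2 ≤ K * A * m ^ 2 := by rw [hw2]; exact z1
  have g1 := wgradB_le H okZ hx.1 hx.2 ha hxA.1 hxb hB1 hm hmB (hP x hx.1) hs0 hs1 hK0 hA0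
    z0 z2 z3 z4 z5
  have g2 := fieldB_le H hx.1 ha hxA.1 hxb hm (hP x hx.1) hs1 hK0 hA0 z6 z7 z8 z9 z10
  rw [← hD, ← hC0] at g1
  rw [← hD, ← hCX] at g2
  obtain ⟨T, hT⟩ : ∃ T : ℝ, T = ‖D3 u x‖ := ⟨_, rfl⟩
  have hT0 : 0 ≤ T := by rw [hT]; exact norm_nonneg _
  rw [← hT] at g1 g2 ⊢
  have hmT : m * T ≤ (m ^ 2 + T ^ 2) / 2 := by nlinarith [sq_nonneg (m - T)]
  have key : A * (m * T) ≤ A * T ^ 2 + B ^ 2 := by
    have h1 : A * (m * T) ≤ A * ((m ^ 2 + T ^ 2) / 2) := by gcongr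
    have h2 : 0 ≤ A * T ^ 2 := by positivity
    have h3 : 0 ≤ B ^ 2 := by positivity
    have h4 : A * ((m ^ 2 + T ^ 2) / 2) = (A * m ^ 2 + A * T ^ 2) / 2 := by ring
    linarith
  have key2 : A * (m * T + T ^ 2) ≤ 2 * (A * T ^ 2 + B ^ 2) := by
    have h3 : 0 ≤ B ^ 2 := by positivity
    have h4 : A * (m * T + T ^ 2) = A * (m * T) + A * T ^ 2 := by ring
    linarith
  have hS0 : 0 ≤ A * T ^ 2 + B ^ 2 := by positivity
  refine ⟨?_, ?_, ?_, ?_⟩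
  · calc wC C u x ^ 2 * T ^ 2 ≤ (K * A * m ^ 2) * T ^ 2 := by gcongr
      _ = K * (A * T ^ 2) * m ^ 2 := by ring
      _ ≤ Q * (A * T ^ 2 + B ^ 2) * m ^ 2 := by
        have : A * T ^ 2 ≤ A * T ^ 2 + B ^ 2 := le_add_of_nonneg_right (by positivity)
        gcongr
  · calc wC C u x * ‖fderiv ℝ (wC C u) x‖ * T ≤ C0 * (A * (m ^ 2 + m * T)) * T := by gcongr
      _ = C0 * (A * (m * T + T ^ 2)) * m := by ring
      _ ≤ C0 * (2 * (A * T ^ 2 + B ^ 2)) * m := by gcongr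
      _ = 2 * C0 * (A * T ^ 2 + B ^ 2) * m := by ring
      _ ≤ Q * (A * T ^ 2 + B ^ 2) * m := by gcongr
  · calc ‖XC C u x‖ * T ≤ CX * (A * (m ^ 2 + m * T)) * T := by gcongr
      _ = CX * (A * (m * T + T ^ 2)) * m := by ring
      _ ≤ CX * (2 * (A * T ^ 2 + B ^ 2)) * m := by gcongr
      _ = 2 * CX * (A * T ^ 2 + B ^ 2) * m := by ring
      _ ≤ Q * (A * T ^ 2 + B ^ 2) * m := by gcongr
  · calc wC C u x ^ 2 * T ≤ (K * A * m ^ 2) * T := by gcongr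
      _ = K * (A * (m * T)) * m := by ring
      _ ≤ Q * (A * T ^ 2 + B ^ 2) * m := by gcongr

/-- `energy` under `GrowthB` for cones with regular free boundary away from `0` -/
theorem red_energyB (hn : 1 ≤ n) {K : ℝ≥0} (hu : LM u K)
    (hreg : ∀ y ∈ frontier (Om u), y ≠ 0 → RegPt u y) (H : HC u) (okZ : C.Z.Ok)
    (hZp : ∀ x ∈ Wn u, 0 < C.Z.f (zN u x)) (hG : GrowthB n C)
    (hst : ∀ x ∈ Wn u, ∃ lam g : Fin n → ℝ, Adm lam g (sN u x) ∧ zN u x = zv lam g (sN u x))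
    (hbd : ∀ a b : ℝ, 0 < a → ∃ B : ℝ, ∀ x ∈ Om u, x ∈ Ann (n + 1) a b →
      hs2 (D2 u x) ≤ B ∧ ‖D3 u x‖ ≤ B)
    (hP : ∀ x ∈ Om u, ‖fderiv ℝ u x‖ ≤ 1) :
    ∀ a b : ℝ, 0 < a → ∃ e : E (n + 1) → ℝ, IntegrableOn e (Wn u ∩ Ann (n + 1) a b) ∧
      ∀ x ∈ Wn u, x ∈ Ann (n + 1) a b →
        wC C u x ^ 2 * ‖D3 u x‖ ^ 2 ≤ e x * hs2 (D2 u x) ∧
        wC C u x * ‖fderiv ℝ (wC C u) x‖ * ‖D3 u x‖ ≤ e x * Real.sqrt (hs2 (D2 u x)) ∧
        ‖XC C u x‖ * ‖D3 u x‖ ≤ e x * Real.sqrt (hs2 (D2 u x)) ∧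
        wC C u x ^ 2 * ‖D3 u x‖ ≤ e x * Real.sqrt (hs2 (D2 u x)) := by
  refine red_energyB' hn H okZ hZp hG hst hbd hP fun mu hmu hmu1 a b ha => ?_
  refine energy_fin (by omega) hu H.sm H.ha hreg ?_ hmu1 ha
  have h1 : (1 : ℝ) ≤ n := by exact_mod_cast hn
  have h2 : (0 : ℝ) < n + 1 := by linarith
  have h3 : 1 - 2 / ((n + 1 : ℕ) : ℝ) = 2 * (((n : ℝ) - 1) / (2 * (n + 1))) := by
    push_cast
    field_simp
    ring
  rw [h3]
  linarith

end Crest.Agent.R097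
end

-- ▼ part R097/RNorm
section

/-!
# Row 97: elementary norm bounds for `act`, `TM`, `gN`, `W1f`
-/

set_option autoImplicit false
set_option synthInstance.maxHeartbeats 400000
open MeasureTheory Metric Set Filter Topology InnerProductSpace
open scoped RealInnerProductSpace NNReal ENNReal Gradient Laplacian

namespace Crest.Agent.R097

variable {d : ℕ} {u : E d → ℝ} {C : CertData}

namespace RR

lemma abs_entry_le (A : Bil d) (i j : Fin d) : |A (bv i) (bv j)| ≤ Real.sqrt (hs2 A) := by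
  refine Real.abs_le_sqrt ?_
  unfold hs2
  refine le_trans ?_ (Finset.single_le_sum (f := fun i => ∑ j, (A (bv i) (bv j)) ^ 2)
    (fun i _ => Finset.sum_nonneg fun j _ => sq_nonneg _) (Finset.mem_univ i))
  exact Finset.single_le_sum (f := fun j => (A (bv i) (bv j)) ^ 2) (fun j _ => sq_nonneg _)
    (Finset.mem_univ j)

lemma norm_act_le (A : Bil d) (v : E d) : ‖act A v‖ ≤ Real.sqrt (hs2 A) * ‖v‖ := by
  have h0 : 0 ≤ Real.sqrt (hs2 A) * ‖v‖ := by positivity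
  refine abs_le_of_sq_le_sq' ?_ h0 |>.2
  have hm : 0 ≤ hs2 A := Finset.sum_nonneg fun i _ => Finset.sum_nonneg fun j _ => sq_nonneg _
  rw [mul_pow, Real.sq_sqrt hm]
  have e1 : ∀ i, (act A v) i = ∑ j, v j * A (bv j) (bv i) := by
    intro i
    have h1 : (act A v) i = A v (bv i) := by
      unfold act
      rw [← inner_bv, inner_sum]
      rw [Finset.sum_eq_single i]
      · rw [inner_smul_right, inner_bv]; simp [bv]
      · intro j _ hj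
        rw [inner_smul_right, inner_bv]; simp [bv, hj.symm]
      · simp
    rw [h1, bil_sum]
  rw [EuclideanSpace.norm_sq_eq]
  have e2 : ‖v‖ ^ 2 = ∑ j, v j ^ 2 := by
    rw [EuclideanSpace.norm_sq_eq]; simp [sq_abs]
  have e3 : ∀ i, ‖(act A v) i‖ ^ 2 ≤ ‖v‖ ^ 2 * ∑ j, A (bv j) (bv i) ^ 2 := by
    intro i
    rw [Real.norm_eq_abs, sq_abs, e1, e2]
    exact Finset.sum_mul_sq_le_sq_mul_sq _ _ _
  refine (Finset.sum_le_sum fun i _ => e3 i).trans (le_of_eq ?_)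
  rw [← Finset.mul_sum, Finset.sum_comm, mul_comm]
  rfl

lemma norm_TM_le (A : Bil d) (B : Tri d) :
    ‖TM A B‖ ≤ (d : ℝ) ^ 3 * (‖B‖ * Real.sqrt (hs2 A)) := by
  unfold TM
  have h1 : ∀ k : Fin d, ‖(∑ i, ∑ j, B (bv k) (bv i) (bv j) * A (bv i) (bv j)) • bv k‖ ≤
      (d : ℝ) ^ 2 * (‖B‖ * Real.sqrt (hs2 A)) := by
    intro k
    rw [norm_smul, norm_bv, mul_one, Real.norm_eq_abs]
    calc |∑ i, ∑ j, B (bv k) (bv i) (bv j) * A (bv i) (bv j)|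
        ≤ ∑ i, ∑ j, |B (bv k) (bv i) (bv j) * A (bv i) (bv j)| :=
          (Finset.abs_sum_le_sum_abs _ _).trans
            (Finset.sum_le_sum fun i _ => Finset.abs_sum_le_sum_abs _ _)
      _ ≤ ∑ i : Fin d, ∑ j : Fin d, ‖B‖ * Real.sqrt (hs2 A) := by
          refine Finset.sum_le_sum fun i _ => Finset.sum_le_sum fun j _ => ?_
          rw [abs_mul]
          have h2 := tri_le B (bv k) i j
          rw [norm_bv, mul_one] at h2
          exact mul_le_mul h2 (abs_entry_le A i j) (abs_nonneg _) (norm_nonneg _)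
      _ = _ := by simp; ring
  refine (norm_sum_le _ _).trans ((Finset.sum_le_sum fun k _ => h1 k).trans (le_of_eq ?_))
  simp; ring

lemma abs_u_le (H : HC u) {x : E d} (hx : x ∈ Om u) (hg : ‖fderiv ℝ u x‖ ≤ 1) : |u x| ≤ ‖x‖ := by
  rw [← H.euler1 hx]
  calc |fderiv ℝ u x x| ≤ ‖fderiv ℝ u x‖ * ‖x‖ := (fderiv ℝ u x).le_opNorm x
    _ ≤ 1 * ‖x‖ := by gcongr
    _ = ‖x‖ := one_mul _

lemma norm_gN_le (H : HC u) {x : E d} (hx : x ∈ Om u) (hg : ‖fderiv ℝ u x‖ ≤ 1) :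
    ‖gN u x‖ ≤ 2 := by
  unfold gN
  have h1 : ‖∇ u x‖ ≤ 1 := by
    unfold gradient; rw [LinearIsometryEquiv.norm_map]; exact hg
  have hn := norm_pos_iff.2 (H.ne_zero hx)
  have h2 : ‖(u x / ‖x‖ ^ 2) • x‖ ≤ 1 := by
    rw [norm_smul, Real.norm_eq_abs, abs_div, abs_of_nonneg (by positivity : (0:ℝ) ≤ ‖x‖ ^ 2),
      div_mul_eq_mul_div, div_le_one (by positivity)]
    nlinarith [abs_u_le H hx hg]
  calc ‖∇ u x - (u x / ‖x‖ ^ 2) • x‖ ≤ ‖∇ u x‖ + ‖(u x / ‖x‖ ^ 2) • x‖ := norm_sub_le _ _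
    _ ≤ 2 := by linarith

lemma norm_Zf_le {x : E d} (hg : ‖fderiv ℝ u x‖ ≤ 1) : ‖Zf u x‖ ≤ Real.sqrt (hs2 (D2 u x)) := by
  have h1 : ‖∇ u x‖ ≤ 1 := by
    unfold gradient; rw [LinearIsometryEquiv.norm_map]; exact hg
  refine (norm_act_le _ _).trans ?_
  have := Real.sqrt_nonneg (hs2 (D2 u x))
  nlinarith

lemma norm_W1f_le (x : E d) : ‖W1f u x‖ ≤
    ‖x‖ ^ 2 * ((d : ℝ) ^ 3 * (‖D3 u x‖ * Real.sqrt (hs2 (D2 u x)))) + hs2 (D2 u x) * ‖x‖ := by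
  unfold W1f
  refine (norm_add_le _ _).trans ?_
  rw [norm_smul, norm_smul, Real.norm_of_nonneg (by positivity : (0:ℝ) ≤ ‖x‖ ^ 2),
    Real.norm_of_nonneg (hs2_nonneg _)]
  have := norm_TM_le (D2 u x) (D3 u x)
  gcongr

lemma Frame_tau_le {n : ℕ} {u : E (n + 1) → ℝ} {x : E (n + 1)} (F : Frame u x) (a b c : Fin n) :
    |F.tau a b c| ≤ ‖x‖ ^ 2 * ‖D3 u x‖ := by
  unfold Frame.tau
  rw [abs_mul, abs_of_nonneg (by positivity : (0:ℝ) ≤ ‖x‖ ^ 2)]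
  refine mul_le_mul_of_nonneg_left ?_ (by positivity)
  have h1 := (D3 u x (F.e a.succ) (F.e b.succ)).le_opNorm (F.e c.succ)
  have h2 := (D3 u x (F.e a.succ)).le_opNorm (F.e b.succ)
  have h3 := (D3 u x).le_opNorm (F.e a.succ)
  rw [F.e.orthonormal.1, mul_one] at h1 h2 h3
  exact h1.trans (h2.trans h3)

end RR

end Crest.Agent.R097
end

-- ▼ part R097/RReg2
section

/-!
# Row 97: bounds of the field and of the test function away from `D²u = 0` (`RedHyp.bdW`)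
-/

set_option autoImplicit false
set_option synthInstance.maxHeartbeats 400000
open MeasureTheory Metric Set Filter Topology InnerProductSpace
open scoped RealInnerProductSpace NNReal ENNReal Gradient Laplacian

namespace Crest.Agent.R097

namespace RR

/-- states with third derivatives -/
abbrev St (n : ℕ) := (Fin n → ℝ) × (Fin n → ℝ) × ℝ × (Fin n → Fin n → Fin n → ℝ)

/-- the compact set of states -/
def KS (n : ℕ) (δ R B : ℝ) : Set (St n) :=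
  {p | (∑ i, p.1 i = 0 ∧ 0 ≤ p.2.2.1 ∧ (∑ i, p.2.1 i ^ 2) + p.2.2.1 ^ 2 ≤ 1 ∧
    p.2.2.1 ^ 2 * (∑ i, p.1 i ^ 2) ≤
      (n : ℝ) / (2 * (n + 2)) * (1 - ((∑ i, p.2.1 i ^ 2) + p.2.2.1 ^ 2) ^ 2)) ∧
    δ ≤ ∑ i, p.1 i ^ 2 ∧ ∑ i, p.1 i ^ 2 ≤ R ∧ ∀ a b c, |p.2.2.2 a b c| ≤ B}

lemma mem_KS {n : ℕ} {δ R B : ℝ} {lam g : Fin n → ℝ} {s : ℝ} {τ : Fin n → Fin n → Fin n → ℝ}
    (h : Adm lam g s) (h1 : δ ≤ ∑ i, lam i ^ 2) (h2 : ∑ i, lam i ^ 2 ≤ R)
    (h3 : ∀ a b c, |τ a b c| ≤ B) : ((lam, g, s, τ) : St n) ∈ KS n δ R B :=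
  ⟨⟨h.tr, h.s0, h.q1, h.ap⟩, h1, h2, h3⟩

lemma adm_KS {n : ℕ} {δ R B : ℝ} (hδ : 0 < δ) {p : St n} (hp : p ∈ KS n δ R B) :
    Adm p.1 p.2.1 p.2.2.1 :=
  ⟨hp.1.1, hδ.trans_le hp.2.1, hp.1.2.1, hp.1.2.2.1, hp.1.2.2.2⟩

lemma isClosed_KS (n : ℕ) (δ R B : ℝ) : IsClosed (KS n δ R B) := by
  have c1 : Continuous fun p : St n => ∑ i, p.1 i := by fun_prop
  have c2 : Continuous fun p : St n => ∑ i, p.1 i ^ 2 := by fun_prop
  have c3 : Continuous fun p : St n => ∑ i, p.2.1 i ^ 2 := by fun_prop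
  have c4 : Continuous fun p : St n => p.2.2.1 := by fun_prop
  have c5 : ∀ a b c, Continuous fun p : St n => |p.2.2.2 a b c| := by
    intro a b c; fun_prop
  unfold KS
  refine IsClosed.and (IsClosed.and (isClosed_eq c1 continuous_const)
    (IsClosed.and (isClosed_le continuous_const c4)
    (IsClosed.and (isClosed_le (c3.add (c4.pow 2)) continuous_const)
    (isClosed_le ((c4.pow 2).mul c2)
      (continuous_const.mul (continuous_const.sub ((c3.add (c4.pow 2)).pow 2)))))))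
    (IsClosed.and (isClosed_le continuous_const c2)
      (IsClosed.and (isClosed_le c2 continuous_const) ?_))
  simp only [Set.ofPred_forall]
  exact isClosed_iInter fun a => isClosed_iInter fun b => isClosed_iInter fun c =>
    isClosed_le (c5 a b c) continuous_const

lemma isCompact_KS (n : ℕ) (δ R B : ℝ) : IsCompact (KS n δ R B) := by
  have hK : IsCompact ((Icc (fun _ => -Real.sqrt R) (fun _ => Real.sqrt R) : Set (Fin n → ℝ)) ×ˢ
      ((Icc (fun _ => -1) (fun _ => 1) : Set (Fin n → ℝ)) ×ˢ ((Icc (-1) 1 : Set ℝ) ×ˢ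
        (Icc (fun _ _ _ => -B) (fun _ _ _ => B) : Set (Fin n → Fin n → Fin n → ℝ))))) :=
    isCompact_Icc.prod (isCompact_Icc.prod (isCompact_Icc.prod isCompact_Icc))
  refine hK.of_isClosed_subset (isClosed_KS n δ R B) ?_
  rintro ⟨lam, g, s, τ⟩ ⟨⟨h1, h2, h3, h4⟩, h5, h6, h7⟩
  simp only at h1 h2 h3 h4 h5 h6 h7
  have hl : ∀ i, |lam i| ≤ Real.sqrt R := fun i => Real.abs_le_sqrt
    ((Finset.single_le_sum (f := fun i => lam i ^ 2) (fun i _ => sq_nonneg _)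
      (Finset.mem_univ i)).trans h6)
  have hg : ∀ i, |g i| ≤ 1 := fun i => by
    have h8 := (Finset.single_le_sum (f := fun i => g i ^ 2) (fun i _ => sq_nonneg _)
      (Finset.mem_univ i))
    have h9 : g i ^ 2 ≤ 1 := by nlinarith [sq_nonneg s]
    exact abs_le_one_iff_mul_self_le_one.2 (by nlinarith)
  have hs : |s| ≤ 1 := by
    have h8 : 0 ≤ ∑ i, g i ^ 2 := Finset.sum_nonneg fun i _ => sq_nonneg _
    exact abs_le_one_iff_mul_self_le_one.2 (by nlinarith)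
  refine ⟨⟨fun i => (abs_le.1 (hl i)).1, fun i => (abs_le.1 (hl i)).2⟩,
    ⟨fun i => (abs_le.1 (hg i)).1, fun i => (abs_le.1 (hg i)).2⟩, abs_le.1 hs,
    ⟨fun a b c => (abs_le.1 (h7 a b c)).1, fun a b c => (abs_le.1 (h7 a b c)).2⟩⟩

lemma continuous_zv (n : ℕ) : Continuous fun p : St n => zv p.1 p.2.1 p.2.2.1 := by
  refine continuous_pi fun i => ?_
  fin_cases i
  · show Continuous fun p : St n => ∑ i, p.1 i ^ 2
    fun_prop
  · show Continuous fun p : St n => ∑ i, p.1 i ^ 3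
    fun_prop
  · show Continuous fun p : St n => ∑ i, p.2.1 i ^ 2
    fun_prop
  · show Continuous fun p : St n => p.2.2.1
    fun_prop

lemma zv_mem {n : ℕ} {δ R B : ℝ} (hδ : 0 < δ) {p : St n} (hp : p ∈ KS n δ R B) :
    zv p.1 p.2.1 p.2.2.1 ∈ {z : Fin 4 → ℝ | 0 < z 0} := hδ.trans_le hp.2.1

lemma cont_f {n : ℕ} {δ R B : ℝ} (hδ : 0 < δ) {F : Coef} (hF : F.Ok) :
    ContinuousOn (fun p : St n => F.f (zv p.1 p.2.1 p.2.2.1)) (KS n δ R B) :=
  (Coef_contDiffOn hF).continuousOn.comp (continuous_zv n).continuousOn fun _ hp => zv_mem hδ hp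

lemma cont_d {n : ℕ} {δ R B : ℝ} (hδ : 0 < δ) {F : Coef} (hF : F.Ok) (i : Fin 4) :
    ContinuousOn (fun p : St n => F.d i (zv p.1 p.2.1 p.2.2.1)) (KS n δ R B) :=
  (hF.cont i).comp (continuous_zv n).continuousOn fun _ hp => zv_mem hδ hp

lemma cont_D {n : ℕ} {δ R B : ℝ} (hδ : 0 < δ) {F : Coef} (hF : F.Ok) (k : Fin n) :
    ContinuousOn (fun p : St n => F.D p.1 p.2.1 p.2.2.1 p.2.2.2 k) (KS n δ R B) := by
  unfold Coef.D
  have c1 : Continuous fun p : St n => 2 * ∑ a, p.1 a * p.2.2.2 a a k := by fun_prop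
  have c2 : Continuous fun p : St n => 3 * ∑ a, p.1 a ^ 2 * p.2.2.2 a a k := by fun_prop
  have c3 : Continuous fun p : St n => 2 * (p.1 k - p.2.2.1) * p.2.1 k := by fun_prop
  have c4 : Continuous fun p : St n => p.2.1 k := by fun_prop
  exact ((((cont_d hδ hF 0).mul c1.continuousOn).add ((cont_d hδ hF 1).mul c2.continuousOn)).add
    ((cont_d hδ hF 2).mul c3.continuousOn)).add ((cont_d hδ hF 3).mul c4.continuousOn)

lemma cont_divE {n : ℕ} {δ R B : ℝ} (hδ : 0 < δ) {C : CertData} {Lam : ℝ} (hC : Cert n C Lam) :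
    ContinuousOn (fun p : St n => C.divE p.1 p.2.1 p.2.2.1 p.2.2.2) (KS n δ R B) := by
  unfold CertData.divE
  have c1 : Continuous fun p : St n =>
      (n * (∑ i, p.1 i ^ 2) + ∑ a, ∑ b, ∑ c, p.2.2.2 a b c ^ 2 : ℝ) := by fun_prop
  have c2 : ∀ k, Continuous fun p : St n => ∑ a, p.1 a * p.2.2.2 a a k := by
    intro k; fun_prop
  have c3 : Continuous fun p : St n => -((n : ℝ) * p.2.2.1) := by fun_prop
  have c4 : ∀ k, Continuous fun p : St n => p.2.1 k := by intro k; fun_prop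
  have c5 : Continuous fun p : St n => ∑ i, p.1 i ^ 2 := by fun_prop
  have c6 : ∀ k, Continuous fun p : St n => p.1 k * p.2.1 k := by intro k; fun_prop
  have c7 : Continuous fun p : St n => (∑ k, p.2.1 k * ∑ a, p.1 a * p.2.2.2 a a k) +
      (∑ i, p.1 i ^ 3) - p.2.2.1 * ∑ i, p.1 i ^ 2 := by fun_prop
  have c8 : ∀ k, Continuous fun p : St n => p.1 k ^ 2 * p.2.1 k := by intro k; fun_prop
  have c9 : Continuous fun p : St n =>
      (∑ k, p.2.1 k * ∑ a, (p.1 a ^ 2 + p.1 a * p.1 k) * p.2.2.2 a a k) +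
      (∑ i, p.1 i ^ 4) - p.2.2.1 * ∑ i, p.1 i ^ 3 := by fun_prop
  have c10 : ∀ k, Continuous fun p : St n => p.1 k ^ 3 * p.2.1 k := by intro k; fun_prop
  refine (((((((cont_f hδ hC.okga).mul c1.continuousOn).add ?_).add
    (((cont_f hδ hC.ok0).mul c3.continuousOn).add ?_)).add
    (((cont_f hδ hC.ok1).mul c5.continuousOn).add ?_)).add
    (((cont_f hδ hC.ok2).mul c7.continuousOn).add ?_))).add
    (((cont_f hδ hC.ok3).mul c9.continuousOn).add ?_)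
  · exact continuousOn_finsetSum _ fun k _ => (cont_D hδ hC.okga k).mul (c2 k).continuousOn
  · exact continuousOn_finsetSum _ fun k _ => (cont_D hδ hC.ok0 k).mul (c4 k).continuousOn
  · exact continuousOn_finsetSum _ fun k _ => (cont_D hδ hC.ok1 k).mul (c6 k).continuousOn
  · exact continuousOn_finsetSum _ fun k _ => (cont_D hδ hC.ok2 k).mul (c8 k).continuousOn
  · exact continuousOn_finsetSum _ fun k _ => (cont_D hδ hC.ok3 k).mul (c10 k).continuousOn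

lemma cont_gradE {n : ℕ} {δ R B : ℝ} (hδ : 0 < δ) {C : CertData} {Lam : ℝ} (hC : Cert n C Lam) :
    ContinuousOn (fun p : St n => (∑ k, C.Z.D p.1 p.2.1 p.2.2.1 p.2.2.2 k ^ 2) /
      (4 * C.Z.f (zv p.1 p.2.1 p.2.2.1))) (KS n δ R B) := by
  refine ContinuousOn.div (continuousOn_finsetSum _ fun k _ => (cont_D hδ hC.okZ k).pow 2)
    (continuousOn_const.mul (cont_f hδ hC.okZ)) fun p hp => ?_
  have := hC.Zpos p.1 p.2.1 p.2.2.1 (adm_KS hδ hp)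
  positivity

/-- **field `bdW` of `RedHyp`** -/
theorem bdW {n : ℕ} {u : E (n + 1) → ℝ} {C : CertData} {Lam : ℝ} (H : HC u) (hC : Cert n C Lam)
    (hA : Apr u)
    (hS : ∀ x ∈ Wn u, ∃ F : Frame u x, Adm F.lam F.g (sN u x) ∧ zN u x = zv F.lam F.g (sN u x) ∧
      ∑ i, F.lam i ^ 2 = ‖x‖ ^ 2 * hs2 (D2 u x))
    (hbd : ∀ a b : ℝ, 0 < a → ∃ B : ℝ, ∀ x ∈ Om u, x ∈ Ann (n + 1) a b →
      hs2 (D2 u x) ≤ B ∧ ‖D3 u x‖ ≤ B)
    (hJ : ∀ x ∈ Wn u, ∀ F : Frame u x,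
      dv (XC C u) x = (‖x‖ ^ 2)⁻¹ * C.divE F.lam F.g (sN u x) F.tau)
    (hG : ∀ x ∈ Wn u, ∀ F : Frame u x, ‖fderiv ℝ (wC C u) x‖ ^ 2 = (‖x‖ ^ 2)⁻¹ *
      ((∑ k, C.Z.D F.lam F.g (sN u x) F.tau k ^ 2) / (4 * C.Z.f (zv F.lam F.g (sN u x))))) :
    ∀ a b δ : ℝ, 0 < a → 0 < δ → ∃ K : ℝ, ∀ x ∈ Wn u, x ∈ Ann (n + 1) a b → δ ≤ hs2 (D2 u x) →
      ‖fderiv ℝ (wC C u) x‖ ≤ K ∧ ‖XC C u x‖ ≤ K ∧ |dv (XC C u) x| ≤ K := by
  intro a b δ ha hδ
  obtain ⟨B, hB⟩ := hbd a b ha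
  have hδ' : 0 < a ^ 2 * δ := by positivity
  set S := KS n (a ^ 2 * δ) (b ^ 2 * B) (b ^ 2 * B) with hSdef
  have hScpt : IsCompact S := isCompact_KS _ _ _ _
  obtain ⟨K1, hK1⟩ := hScpt.exists_bound_of_continuousOn (cont_divE hδ' hC)
  obtain ⟨K2, hK2⟩ := hScpt.exists_bound_of_continuousOn (cont_gradE hδ' hC)
  obtain ⟨K3, hK3⟩ := hScpt.exists_bound_of_continuousOn (cont_f hδ' hC.okga)
  obtain ⟨K4, hK4⟩ := hScpt.exists_bound_of_continuousOn (cont_f hδ' hC.ok0)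
  obtain ⟨K5, hK5⟩ := hScpt.exists_bound_of_continuousOn (cont_f hδ' hC.ok1)
  obtain ⟨K6, hK6⟩ := hScpt.exists_bound_of_continuousOn (cont_f hδ' hC.ok2)
  obtain ⟨K7, hK7⟩ := hScpt.exists_bound_of_continuousOn (cont_f hδ' hC.ok3)
  set W : ℝ := b ^ 2 * (((n + 1 : ℕ) : ℝ) ^ 3 * (B * Real.sqrt B)) + B * b with hW
  set KX : ℝ := K3 * W + K4 * a⁻¹ * 2 + K5 * Real.sqrt B + K6 * b * (Real.sqrt B * Real.sqrt B)
    + K7 * b ^ 2 * (Real.sqrt B * (Real.sqrt B * Real.sqrt B)) with hKX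
  refine ⟨max (Real.sqrt ((a ^ 2)⁻¹ * K2)) (max KX ((a ^ 2)⁻¹ * K1)), fun x hx hxA hxδ => ?_⟩
  have hxO := hx.1
  have hx0 := norm_pos_iff.2 (H.ne_zero hxO)
  obtain ⟨F, hF1, hF2, hF3⟩ := hS x hx
  obtain ⟨hB1, hB2⟩ := hB x hxO hxA
  have hB0 : 0 ≤ B := (norm_nonneg _).trans hB2
  have hxa : a ≤ ‖x‖ := hxA.1
  have hxb : ‖x‖ ≤ b := hxA.2
  have hb0 : 0 ≤ b := (norm_nonneg _).trans hxb
  have hsq : ‖x‖ ^ 2 ≤ b ^ 2 := by gcongr
  have hsqa : a ^ 2 ≤ ‖x‖ ^ 2 := by gcongr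
  have hinv : (‖x‖ ^ 2)⁻¹ ≤ (a ^ 2)⁻¹ := by gcongr
  have hmem : ((F.lam, F.g, sN u x, F.tau) : St n) ∈ S := by
    refine mem_KS hF1 ?_ ?_ fun i j k => (Frame_tau_le F i j k).trans ?_
    · rw [hF3]; gcongr
    · rw [hF3]; gcongr; exact hs2_nonneg _
    · gcongr
  have m1 := hK1 _ hmem
  have m2 := hK2 _ hmem
  have m3 := hK3 _ hmem
  have m4 := hK4 _ hmem
  have m5 := hK5 _ hmem
  have m6 := hK6 _ hmem
  have m7 := hK7 _ hmem
  simp only [Real.norm_eq_abs] at m1 m2 m3 m4 m5 m6 m7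
  rw [← hF2] at m3 m4 m5 m6 m7
  have hgr := hA.grad x hxO
  have hsqB : Real.sqrt (hs2 (D2 u x)) ≤ Real.sqrt B := Real.sqrt_le_sqrt hB1
  have p3 : 0 ≤ K3 := (abs_nonneg _).trans m3
  have p4 : 0 ≤ K4 := (abs_nonneg _).trans m4
  have p5 : 0 ≤ K5 := (abs_nonneg _).trans m5
  have p6 : 0 ≤ K6 := (abs_nonneg _).trans m6
  have p7 : 0 ≤ K7 := (abs_nonneg _).trans m7
  refine ⟨le_max_of_le_left ?_, le_max_of_le_right (le_max_of_le_left ?_),
    le_max_of_le_right (le_max_of_le_right ?_)⟩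
  · refine Real.le_sqrt_of_sq_le ?_
    rw [hG x hx F]
    have h0 : 0 ≤ (∑ k, C.Z.D F.lam F.g (sN u x) F.tau k ^ 2) /
        (4 * C.Z.f (zv F.lam F.g (sN u x))) := by
      have := hC.Zpos _ _ _ hF1
      positivity
    exact mul_le_mul hinv ((le_abs_self _).trans m2) h0 (by positivity)
  · have q1 : ‖W1f u x‖ ≤ W := by
      refine (norm_W1f_le x).trans ?_
      rw [hW]
      have := hs2_nonneg (D2 u x)
      gcongr
    have q2 : ‖gN u x‖ ≤ 2 := norm_gN_le H hxO hgr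
    have q3 : ‖Zf u x‖ ≤ Real.sqrt B := (norm_Zf_le hgr).trans hsqB
    have q4 : ‖act (D2 u x) (Zf u x)‖ ≤ Real.sqrt B * Real.sqrt B :=
      (norm_act_le _ _).trans (mul_le_mul hsqB q3 (norm_nonneg _) (Real.sqrt_nonneg _))
    have q6 : ‖act (D2 u x) (act (D2 u x) (Zf u x))‖ ≤
        Real.sqrt B * (Real.sqrt B * Real.sqrt B) :=
      (norm_act_le _ _).trans (mul_le_mul hsqB q4 (norm_nonneg _) (Real.sqrt_nonneg _))
    have q5 : ‖x‖⁻¹ ≤ a⁻¹ := by gcongr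
    unfold XC
    refine (norm_add_le _ _).trans (add_le_add ((norm_add_le _ _).trans (add_le_add
      ((norm_add_le _ _).trans (add_le_add ((norm_add_le _ _).trans (add_le_add ?_ ?_))
        ?_)) ?_)) ?_)
    · rw [norm_smul, Real.norm_eq_abs]
      exact mul_le_mul m3 q1 (norm_nonneg _) p3
    · rw [norm_smul, Real.norm_eq_abs, abs_mul, abs_of_nonneg (by positivity : (0:ℝ) ≤ ‖x‖⁻¹)]
      gcongr
    · rw [norm_smul, Real.norm_eq_abs]
      exact mul_le_mul m5 q3 (norm_nonneg _) p5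
    · rw [norm_smul, Real.norm_eq_abs, abs_mul, abs_norm]
      gcongr
    · rw [norm_smul, Real.norm_eq_abs, abs_mul, abs_pow, abs_norm]
      gcongr
  · rw [hJ x hx F, abs_mul, abs_of_nonneg (by positivity : (0:ℝ) ≤ (‖x‖ ^ 2)⁻¹)]
    exact mul_le_mul hinv m1 (abs_nonneg _) (by positivity)

end RR

end Crest.Agent.R097
end

-- ▼ part R097/RFin
section

/-!
# Row 97: certificate ⟹ flat (assembly of the reduction)
-/

set_option autoImplicit false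
set_option synthInstance.maxHeartbeats 400000
open MeasureTheory Metric Set Filter Topology InnerProductSpace
open scoped RealInnerProductSpace NNReal ENNReal Gradient Laplacian

namespace Crest.Agent.R097

variable {n : ℕ} {u : E (n + 1) → ℝ} {C : CertData} {Lam : ℝ}

/-- the cone data of a Lipschitz minimising cone -/
theorem hc_of_LM {d : ℕ} {K : ℝ≥0} {u : E d → ℝ} (hu : LM u K) (hh : Hom1 u) : HC u where
  cont := hu.lip.continuous
  sm := hu.harm.1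
  ha := hu.harm.2
  hh := hh

theorem apr_of_LM {n : ℕ} (hn2 : 2 ≤ n) {K : ℝ≥0} {u : E (n + 1) → ℝ} (hu : LM u K)
    (hh : Hom1 u) (hreg : ∀ y ∈ frontier (Om u), y ≠ 0 → RegPt u y) : Apr u where
  grad := grad_le_one (by omega) hu hh hu.harm hreg
  ap := by
    intro x hx
    refine (apriori619_cone hn2 hu hh hreg x hx).trans (le_of_eq ?_)
    congr 1
    push_cast
    congr 1 <;> ring

/-- the interior inequality -/
theorem int_of_cert (hC : Cert n C Lam) (H : HC u) (hA : Apr u) : ∀ x ∈ Wn u,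
    ‖fderiv ℝ (wC C u) x‖ ^ 2 + Lam * wC C u x ^ 2 / ‖x‖ ^ 2 ≤ dv (XC C u) x := by
  intro x hx
  obtain ⟨F⟩ := exists_frame H hx.1
  have hn : 0 < ‖x‖ := norm_pos_iff.2 (H.ne_zero hx.1)
  have hadm := F.adm H hA hx
  have hpos := hC.Zpos _ _ _ hadm
  obtain ⟨-, -, hg⟩ := F.grad_wC H hx hC.okZ hpos
  have hPJ := hC.PJ _ _ _ F.tau hadm (F.stf H hx.1)
  have hw : wC C u x ^ 2 = C.Z.f (zv F.lam F.g (sN u x)) := by
    unfold wC
    rw [F.jzN_eq H hx.1, Real.sq_sqrt hpos.le]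
  rw [F.dv_XC H hx hC.okga hC.ok0 hC.ok1 hC.ok2 hC.ok3, hg, hw]
  have h2 : (‖x‖ ^ 2)⁻¹ * ((∑ k, C.Z.D F.lam F.g (sN u x) F.tau k ^ 2) /
      (4 * C.Z.f (zv F.lam F.g (sN u x)))) + Lam * C.Z.f (zv F.lam F.g (sN u x)) / ‖x‖ ^ 2 =
      (‖x‖ ^ 2)⁻¹ * ((∑ k, C.Z.D F.lam F.g (sN u x) F.tau k ^ 2) /
      (4 * C.Z.f (zv F.lam F.g (sN u x))) + Lam * C.Z.f (zv F.lam F.g (sN u x))) := by
    field_simp
  rw [h2]
  exact mul_le_mul_of_nonneg_left hPJ (by positivity)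

lemma Wn_zpos (hC : Cert n C Lam) (H : HC u) (hA : Apr u) : ∀ x ∈ Wn u, 0 < C.Z.f (zN u x) := by
  intro x hx
  obtain ⟨F⟩ := exists_frame H hx.1
  rw [F.jzN_eq H hx.1]
  exact hC.Zpos _ _ _ (F.adm H hA hx)

/-- annuli avoid the vertex -/
lemma Ann_ne {d : ℕ} {a b : ℝ} (ha : 0 < a) {y : E d} (hy : y ∈ Ann d a b) : y ≠ 0 := by
  rintro rfl
  have : a ≤ ‖(0 : E d)‖ := hy.1
  rw [norm_zero] at this; linarith

lemma hs2_le_norm {d : ℕ} (A : Bil d) : hs2 A ≤ (d : ℝ) * (d * ‖A‖ ^ 2) := hs_le A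

lemma norm_Zf_le {d : ℕ} (u : E d → ℝ) (x : E d) :
    ‖Zf u x‖ ≤ (d : ℝ) * (‖D2 u x‖ * ‖fderiv ℝ u x‖) := by
  unfold Zf act
  refine (norm_sum_le _ _).trans ?_
  have h : ∀ i ∈ (Finset.univ : Finset (Fin d)),
      ‖(D2 u x (∇ u x) (bv i)) • bv i‖ ≤ ‖D2 u x‖ * ‖fderiv ℝ u x‖ := by
    intro i _
    rw [norm_smul, norm_bv, mul_one]
    have h1 := (D2 u x (∇ u x)).le_opNorm (bv i)
    have h2 := (D2 u x).le_opNorm (∇ u x)
    rw [norm_bv, mul_one] at h1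
    rw [norm_gradient] at h2
    exact h1.trans h2
  refine (Finset.sum_le_sum h).trans ?_
  simp

/-- **certificate ⟹ flat**, given the three estimates `wbd`, `bdW`, `energy` -/
theorem red_of_cert' (hn2 : 2 ≤ n) (hC : Cert n C Lam) {K : ℝ≥0} (hu : LM u K) (hh : Hom1 u)
    (hreg : ∀ y ∈ frontier (Om u), y ≠ 0 → RegPt u y)
    (hwbd : ∀ a b : ℝ, 0 < a → ∃ C' : ℝ, ∀ x ∈ Wn u, x ∈ Ann (n + 1) a b → wC C u x ≤ C')
    (hbdW : ∀ a b δ : ℝ, 0 < a → 0 < δ → ∃ C' : ℝ, ∀ x ∈ Wn u, x ∈ Ann (n + 1) a b →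
      δ ≤ hs2 (D2 u x) → ‖fderiv ℝ (wC C u) x‖ ≤ C' ∧ ‖XC C u x‖ ≤ C' ∧ |dv (XC C u) x| ≤ C')
    (hen : ∀ a b : ℝ, 0 < a → ∃ e : E (n + 1) → ℝ, IntegrableOn e (Wn u ∩ Ann (n + 1) a b) ∧
      ∀ x ∈ Wn u, x ∈ Ann (n + 1) a b →
        wC C u x ^ 2 * ‖D3 u x‖ ^ 2 ≤ e x * hs2 (D2 u x) ∧
        wC C u x * ‖fderiv ℝ (wC C u) x‖ * ‖D3 u x‖ ≤ e x * Real.sqrt (hs2 (D2 u x)) ∧
        ‖XC C u x‖ * ‖D3 u x‖ ≤ e x * Real.sqrt (hs2 (D2 u x)) ∧
        wC C u x ^ 2 * ‖D3 u x‖ ≤ e x * Real.sqrt (hs2 (D2 u x))) :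
    ∀ x ∈ Om u, D2 u x = 0 := by
  have H : HC u := hc_of_LM hu hh
  have hd : 2 ≤ n + 1 := by omega
  have hA : Apr u := apr_of_LM hn2 hu hh hreg
  have hpos := Wn_zpos hC H hA
  have hregA : ∀ a b : ℝ, 0 < a → ∀ y ∈ Ann (n + 1) a b, y ∈ frontier (Om u) → RegPt u y :=
    fun a b ha y hy hyf => hreg y hyf (Ann_ne ha hy)
  have hyp : RedHyp u (wC C u) (XC C u) Lam :=
    { cont := H.cont
      u0 := H.u0
      sm := H.sm
      bd := by
        intro a b ha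
        obtain ⟨M2, h2⟩ := bdd_D2 H.cont H.sm (isCompact_Ann a b) (hregA a b ha)
        obtain ⟨M3, h3⟩ := bdd_D3 H.cont H.sm (isCompact_Ann a b) (hregA a b ha)
        refine ⟨max (((n + 1 : ℕ) : ℝ) * ((n + 1 : ℕ) * (max M2 0) ^ 2))
          (max M3 (((n + 1 : ℕ) : ℝ) * (max M2 0 * 1))), fun x hx hxA => ⟨?_, ?_, ?_⟩⟩
        · refine le_trans ?_ (le_max_left _ _)
          refine (hs2_le_norm _).trans ?_
          have h5 : ‖D2 u x‖ ≤ max M2 0 := (h2 x hx hxA).trans (le_max_left _ _)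
          gcongr
        · exact (h3 x hx hxA).trans ((le_max_left _ _).trans (le_max_right _ _))
        · refine le_trans ?_ ((le_max_right _ _).trans (le_max_right _ _))
          refine (norm_Zf_le u x).trans ?_
          have h5 : ‖D2 u x‖ ≤ max M2 0 := (h2 x hx hxA).trans (le_max_left _ _)
          have h6 := hA.grad x hx
          gcongr
      divZ := fun x hx => dv_Zf H hx
      flux := by
        intro a b ha F hF hF0 hFb hb
        obtain ⟨C', hC'⟩ := hFb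
        exact flux hu H.sm H.ha (isCompact_Ann a b) (hregA a b ha) hF hF0
          (fun x hx => (hC' x hx).1) (fun x hx => (hC' x hx).2)
          (fun y hyS hyf ε hε => hb y hyf hyS ε hε)
      stab := by
        intro a b ha φ hφ h0 hφ0 hφb
        obtain ⟨C', hC'⟩ := hφb
        have h := stab hu H.sm H.ha (U := {x | x ≠ 0}) isOpen_ne
          (fun y hy hyf => hreg y hyf hy) (isCompact_Ann a b) (fun y hy => Ann_ne ha hy) hφ h0 hφ0
          (fun x hx => (hC' x hx).1) (fun x hx => (hC' x hx).2)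
        refine le_trans (le_of_eq ?_) h
        refine setIntegral_congr_fun H.isOpen.measurableSet fun x hx => ?_
        have e1 : fderiv ℝ φ x (Zf u x) = D2 u x (∇ u x) (∇ φ x) := by
          rw [← inner_gradient, Zf, inner_act]
        rw [e1]; rfl
      wC := RR.wC_contDiffOn H hC.okZ hpos
      wpos := fun x hx => Real.sqrt_pos.2 (hpos x hx)
      wrad := by
        intro x hx
        obtain ⟨F⟩ := exists_frame H hx.1
        exact (F.grad_wC H hx hC.okZ (hC.Zpos _ _ _ (F.adm H hA hx))).2.1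
      XC := RR.XC_contDiffOn H hC.okga hC.ok0 hC.ok1 hC.ok2 hC.ok3
      Xtan := RR.XC_tan H
      int := int_of_cert hC H hA
      bdry := by
        intro y hy hy0 ε hε δ hδ
        obtain ⟨e, A, B, hJ⟩ := hreg y hy hy0
        exact RB.rbdry hC H hy hy0 hJ (jets_Aee_nonpos hd hu hh hu.harm hreg hy hy0 hJ) ε hε δ hδ
      wbd := hwbd
      bdW := hbdW
      energy := hen }
  have hLam : ((((n + 1 : ℕ) : ℝ) - 2) / 2) ^ 2 < Lam := by
    have := hC.lam_gt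
    push_cast
    have e : ((n : ℝ) + 1 - 2) / 2 = ((n : ℝ) - 1) / 2 := by ring
    rw [e]; exact this
  have hW := red_conclusion (Nat.succ_pos n) hyp hh (RR.wC_hom H) hLam
  intro x hx
  have h0 : hs2 (D2 u x) = 0 := by
    by_contra hne
    have hpos' : 0 < hs2 (D2 u x) := lt_of_le_of_ne (hs2_nonneg _) (Ne.symm hne)
    have : x ∈ Wn u := ⟨hx, hpos'⟩
    rw [hW] at this
    exact this
  have h1 : ∀ i j : Fin (n + 1), D2 u x (bv i) (bv j) = 0 := by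
    intro i j
    unfold hs2 at h0
    have h2 := (Finset.sum_eq_zero_iff_of_nonneg (fun i _ =>
      Finset.sum_nonneg fun j _ => sq_nonneg _)).1 h0 i (Finset.mem_univ i)
    have h3 := (Finset.sum_eq_zero_iff_of_nonneg (fun j _ => sq_nonneg _)).1 h2 j
      (Finset.mem_univ j)
    exact pow_eq_zero_iff (two_ne_zero) |>.1 h3
  ext v w
  rw [bil_sum (D2 u x) v w]
  have h4 : ∀ i, D2 u x (bv i) w = 0 := by
    intro i
    conv_lhs => rw [← sum_bv w, map_sum]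
    refine Finset.sum_eq_zero fun j _ => ?_
    rw [map_smul, h1, smul_zero]
  simp [h4]

/-- bounds on annuli from the regular points -/
lemma bd_ann (H : HC u) (hreg : ∀ y ∈ frontier (Om u), y ≠ 0 → RegPt u y) :
    ∀ a b : ℝ, 0 < a → ∃ B : ℝ, ∀ x ∈ Om u, x ∈ Ann (n + 1) a b →
      hs2 (D2 u x) ≤ B ∧ ‖D3 u x‖ ≤ B := by
  intro a b ha
  have hregA : ∀ y ∈ Ann (n + 1) a b, y ∈ frontier (Om u) → RegPt u y :=
    fun y hy hyf => hreg y hyf (Ann_ne ha hy)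
  obtain ⟨M2, h2⟩ := bdd_D2 H.cont H.sm (isCompact_Ann a b) hregA
  obtain ⟨M3, h3⟩ := bdd_D3 H.cont H.sm (isCompact_Ann a b) hregA
  refine ⟨max (((n + 1 : ℕ) : ℝ) * ((n + 1 : ℕ) * (max M2 0) ^ 2)) M3,
    fun x hx hxA => ⟨?_, ?_⟩⟩
  · refine le_trans ?_ (le_max_left _ _)
    refine (hs2_le_norm _).trans ?_
    have h5 : ‖D2 u x‖ ≤ max M2 0 := (h2 x hx hxA).trans (le_max_left _ _)
    gcongr
  · exact (h3 x hx hxA).trans (le_max_right _ _)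

/-- **certificate ⟹ flat** -/
theorem red_of_cert (hn2 : 2 ≤ n) (hC : Cert n C Lam) (K : ℝ≥0) (u : E (n + 1) → ℝ)
    (hu : LM u K) (hh : Hom1 u) (hreg : ∀ y ∈ frontier (Om u), y ≠ 0 → RegPt u y) :
    ∀ x ∈ Om u, D2 u x = 0 := by
  have H : HC u := hc_of_LM hu hh
  have hA : Apr u := apr_of_LM hn2 hu hh hreg
  have hbd := bd_ann H hreg
  have hst : ∀ x ∈ Wn u, ∃ lam g : Fin n → ℝ, Adm lam g (sN u x) ∧
      zN u x = zv lam g (sN u x) := by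
    intro x hx
    obtain ⟨F⟩ := exists_frame H hx.1
    exact ⟨F.lam, F.g, F.adm H hA hx, F.jzN_eq H hx.1⟩
  have hS : ∀ x ∈ Wn u, ∃ F : Frame u x, Adm F.lam F.g (sN u x) ∧
      zN u x = zv F.lam F.g (sN u x) ∧ ∑ i, F.lam i ^ 2 = ‖x‖ ^ 2 * hs2 (D2 u x) := by
    intro x hx
    obtain ⟨F⟩ := exists_frame H hx.1
    refine ⟨F, F.adm H hA hx, F.jzN_eq H hx.1, ?_⟩
    have hn : ‖x‖ ≠ 0 := norm_ne_zero_iff.2 (H.ne_zero hx.1)
    rw [F.hs2_eq H hx.1]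
    field_simp
  have hbdry := RR.bdW H hC hA hS hbd (fun x hx F => F.dv_XC H hx hC.okga hC.ok0 hC.ok1 hC.ok2 hC.ok3)
    (fun x hx F => (F.grad_wC H hx hC.okZ (hC.Zpos _ _ _ (F.adm H hA hx))).2.2)
  have hn1 : 1 ≤ n := by omega
  have hZp : ∀ x ∈ Wn u, 0 < C.Z.f (zN u x) := by
    intro x hx
    obtain ⟨lam, g, hAd, hz⟩ := hst x hx
    rw [hz]; exact hC.Zpos _ _ _ hAd
  rcases hC.growth with hG | hG
  · exact red_of_cert' hn2 hC hu hh hreg (red_wbd hC hG hst hbd) hbdry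
      (red_energy H hC hG hst hbd hA.grad)
  · exact red_of_cert' hn2 hC hu hh hreg (red_wbdB hn1 hG hst hbd) hbdry
      (red_energyB hn1 hu hreg H hC.okZ hZp hG hst hbd hA.grad)

end Crest.Agent.R097
end

-- ▼ part R097/Link
section

/-!
# Row 97: final assembly II (linker: helper169)

`S0128_of_certs`: the statement of S0128 from stability certificates in the dimensions
`n = 2, 3, 4, 5`.
-/

set_option autoImplicit false
open MeasureTheory Metric Set Filter Topology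
open scoped NNReal RealInnerProductSpace Gradient ContDiff Laplacian
open Crest.AnalysisR.PDE.OnePhase

namespace Crest.Agent.R097

/-- a certificate in dimension `n` gives the reduction in dimension `n + 1` -/
theorem redStmt_of_cert {n : ℕ} (hn : 2 ≤ n) (h : ∃ (C : CertData) (Lam : ℝ), Cert n C Lam) :
    RedStmt (n + 1) := by
  obtain ⟨C, Lam, hC⟩ := h
  exact red_of_cert hn hC

/-- **S0128 from the four certificates** -/
theorem S0128_of_certs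
    (h2 : ∃ (C : CertData) (Lam : ℝ), Cert 2 C Lam)
    (h3 : ∃ (C : CertData) (Lam : ℝ), Cert 3 C Lam)
    (h4 : ∃ (C : CertData) (Lam : ℝ), Cert 4 C Lam)
    (h5 : ∃ (C : CertData) (Lam : ℝ), Cert 5 C Lam)
    (d : ℕ) (hd1 : 1 ≤ d) (hd6 : d ≤ 6)
    (u : EuclideanSpace ℝ (Fin d) → ℝ) (G : EuclideanSpace ℝ (Fin d) → EuclideanSpace ℝ (Fin d))
    (hmin : IsGlobalMinimizer u G) (hhom : IsOneHomogeneous u)
    (hne : ¬ (u =ᵐ[volume] 0)) :
    ∃ e : EuclideanSpace ℝ (Fin d), ‖e‖ = 1 ∧ u =ᵐ[volume] fun x => max (inner ℝ x e) 0 :=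
  S0128_of_red (redStmt_of_cert (by norm_num) h2) (redStmt_of_cert (by norm_num) h3)
    (redStmt_of_cert (by norm_num) h4) (redStmt_of_cert (by norm_num) h5)
    d hd1 hd6 u G hmin hhom hne

end Crest.Agent.R097
end

-- ▼ part R097/Cert2
section

/-!
# Row 97: the certificate for `n = 2` (`d = 3`): `Z = P₂`, `X = (1/2) M:T`, `Λ = 1`
-/

set_option autoImplicit false
open scoped BigOperators

namespace Crest.Agent.R097

namespace Cert2

/-- constant coefficient -/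
noncomputable def cst (c : ℝ) : Coef where
  f := fun _ => c
  d := fun _ _ => 0

/-- the coefficient `P₂` -/
noncomputable def cP2 : Coef where
  f := fun z => z 0
  d := fun i _ => if i = 0 then 1 else 0

lemma cst_ok (c : ℝ) : (cst c).Ok where
  has := fun z _ => by
    have h : HasFDerivAt (fun _ : Fin 4 → ℝ => c) (0 : (Fin 4 → ℝ) →L[ℝ] ℝ) z :=
      hasFDerivAt_const c z
    simpa [cst] using h
  cont := fun i => by simpa [cst] using continuousOn_const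

lemma cP2_ok : cP2.Ok where
  has := fun z _ => by
    have h : HasFDerivAt (fun y : Fin 4 → ℝ => y 0)
        (ContinuousLinearMap.proj 0 : (Fin 4 → ℝ) →L[ℝ] ℝ) z :=
      (ContinuousLinearMap.proj (R := ℝ) (φ := fun _ : Fin 4 => ℝ) 0).hasFDerivAt
    simpa [cP2, Fin.sum_univ_four] using h
  cont := fun i => by simpa [cP2] using continuousOn_const

/-- the data for `n = 2` -/
noncomputable def data : CertData where
  ga := cst (1 / 2)
  y0 := cst 0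
  y1 := cst 0
  y2 := cst 0
  y3 := cst 0
  Z := cP2

lemma zv0 {n : ℕ} (lam g : Fin n → ℝ) (s : ℝ) : zv lam g s 0 = ∑ i, lam i ^ 2 := rfl

lemma growthA : GrowthA 2 data := fun R => ⟨1, fun lam g s h hR => by
    simp [data, cst, cP2, zv0]
    norm_num⟩

end Cert2

open Cert2 in
/-- **certificate for `d = 3`** -/
theorem cert2 : Cert 2 Cert2.data 1 where
  okga := cst_ok _
  ok0 := cst_ok _
  ok1 := cst_ok _
  ok2 := cst_ok _
  ok3 := cst_ok _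
  okZ := cP2_ok
  Zpos := fun lam g s h => by
    show 0 < zv lam g s 0
    rw [zv0]; exact h.pos
  lam_gt := by norm_num
  PJ := fun lam g s τ h ht => by
    have hl : lam 1 = -lam 0 := by
      have := h.tr; simp only [Fin.sum_univ_two] at this; linarith
    have hp := h.pos
    have h0 : ∀ k, τ 1 1 k = -τ 0 0 k := fun k => by
      have := ht.tr k; simp only [Fin.sum_univ_two] at this; linarith
    have a1 : τ 0 1 0 = τ 0 0 1 := ht.s23 0 1 0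
    have a2 : τ 1 0 0 = τ 0 0 1 := (ht.s12 1 0 0).trans a1
    have a3 : τ 1 0 1 = τ 1 1 0 := ht.s23 1 0 1
    have a4 : τ 0 1 1 = τ 1 1 0 := (ht.s12 0 1 1).trans a3
    have hpos : 0 < lam 0 ^ 2 := by
      simp only [Fin.sum_univ_two, hl] at hp; nlinarith
    have hne : lam 0 ≠ 0 := by
      rintro h0; rw [h0] at hpos; norm_num at hpos
    simp only [CertData.divE, Coef.D, data, cst, cP2, zv0, Fin.sum_univ_two, hl, h0, a1, a2, a3, a4]
    simp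
    have e : (lam 0 ^ 2 + lam 0 ^ 2) = 2 * lam 0 ^ 2 := by ring
    rw [e]
    have : (2 * (lam 0 * τ 0 0 0 + lam 0 * τ 0 0 0)) ^ 2 + (2 * (lam 0 * τ 0 0 1 + lam 0 * τ 0 0 1)) ^ 2 =
        (4 * (2 * lam 0 ^ 2)) * (2 * (τ 0 0 0 ^ 2 + τ 0 0 1 ^ 2)) := by ring
    rw [this, mul_div_cancel_left₀ _ (by positivity)]
    have h1 : τ 1 1 1 = - τ 0 0 1 := h0 1
    nlinarith [h0 0, h0 1]
  BJ := fun lam k0 H h1 h2 hH hk => by
    have hl : lam 1 = -lam 0 := by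
      simp only [Fin.sum_univ_two] at h1; linarith
    simp only [data, cst, cP2, Fin.sum_univ_two, hl]
    have hk' : lam 0 ^ 2 = H ^ 2 := by
      fin_cases k0
      · simp at hk; rw [hk]; ring
      · simp at hk
        have : lam 0 = H := by rw [hl] at hk; linarith
        rw [this]
    simp
    nlinarith [hk']
  growth := Or.inl growthA

end Crest.Agent.R097
end

-- ▼ part R097/Cert3a
section

/-!
# Row 97: the certificate for `n = 3` (`d = 4`)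

With `ρ = √P₂`, `Q = q + s²`: `Z = ρ`, `γ = (14/25 - (3/20) Q)/ρ`, `y₀ = ρ² (1/10 + (19/100) Q)`,
`y₁ = (6/25) ρ Q`, `y₂ = -(39/100) Q`, `y₃ = 0`, `Λ = 11/10`.  Since `y₁`, `y₂` are multiples of `Q`
the block of direction `k` is affine in `Q` (after splitting off a scalar inequality), so that only
`Q = 0` and `Q = 1` matter: univariate polynomials in `ξ = λ_k/ρ`, `3 ξ² ≤ 2`.
-/

set_option autoImplicit false
open scoped BigOperators

namespace Crest.Agent.R097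

namespace Cert3

/-! ## Univariate inequalities -/


theorem p0_nonneg {x : ℝ} (hx : 3 * x ^ 2 ≤ 2) :
    0 ≤ (497/625 + 17391/5000*x + 7491/12500*x^2 - 32481/3125*x^3 - 12339/6250*x^4 + 9477/1250*x^5) := by
  have h : 0 ≤ 2 / 3 - x ^ 2 := by linarith
  have key : (497/625 + 17391/5000*x + 7491/12500*x^2 - 32481/3125*x^3 - 12339/6250*x^4 + 9477/1250*x^5) =
      ((766/1875) * ((1)*1+(34173/12256)*x+(-3975/3064)*x^2+(-3525/766)*x^3)^2 + (385754707/1838400000) * ((1)*x+(111814236/385754707)*x^2+(-805326000/385754707)*x^3)^2 + (772832521593/2410966918750) * ((1)*x^2+(-11355041895/171740560354)*x^3)^2 + (33716520412653/85870280177000) * ((1)*x^3)^2) +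
      (2 / 3 - x ^ 2) * ((29/50) * ((1)*1+(45/29)*x+(-92/29)*x^2)^2 + (817/1450) * ((1)*x+(1965/817)*x^2)^2 + (35269/40850) * ((1)*x^2)^2) := by ring
  have h0 : 0 ≤ ((766/1875) * ((1)*1+(34173/12256)*x+(-3975/3064)*x^2+(-3525/766)*x^3)^2 + (385754707/1838400000) * ((1)*x+(111814236/385754707)*x^2+(-805326000/385754707)*x^3)^2 + (772832521593/2410966918750) * ((1)*x^2+(-11355041895/171740560354)*x^3)^2 + (33716520412653/85870280177000) * ((1)*x^3)^2) := by positivity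
  have h1 : 0 ≤ ((29/50) * ((1)*1+(45/29)*x+(-92/29)*x^2)^2 + (817/1450) * ((1)*x+(1965/817)*x^2)^2 + (35269/40850) * ((1)*x^2)^2) := by positivity
  have h2 := mul_nonneg h h1
  linarith

theorem p1_nonneg {x : ℝ} (hx : 3 * x ^ 2 ≤ 2) :
    0 ≤ (5111/10000 + 2223/1000*x + 7179/25000*x^2 - 93447/12500*x^3 - 9531/6250*x^4 + 3861/625*x^5) := by
  have h : 0 ≤ 2 / 3 - x ^ 2 := by linarith
  have key : (5111/10000 + 2223/1000*x + 7179/25000*x^2 - 93447/12500*x^3 - 9531/6250*x^4 + 3861/625*x^5) =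
      ((2511/10000) * ((1)*1+(2305/837)*x+(-3700/2511)*x^2+(-10400/2511)*x^3)^2 + (2969257/13950000) * ((1)*x+(-374278/8907771)*x^2+(-12804500/8907771)*x^3)^2 + (290947619/11134713750) * ((1)*x^2+(-183865194/290947619)*x^3)^2 + (70507971179/2182107142500) * ((1)*x^3)^2) +
      (2 / 3 - x ^ 2) * ((39/100) * ((1)*1+(21/13)*x+(-119/39)*x^2)^2 + (203/650) * ((1)*x+(471/406)*x^2)^2 + (89969/121800) * ((1)*x^2)^2) := by ring
  have h0 : 0 ≤ ((2511/10000) * ((1)*1+(2305/837)*x+(-3700/2511)*x^2+(-10400/2511)*x^3)^2 + (2969257/13950000) * ((1)*x+(-374278/8907771)*x^2+(-12804500/8907771)*x^3)^2 + (290947619/11134713750) * ((1)*x^2+(-183865194/290947619)*x^3)^2 + (70507971179/2182107142500) * ((1)*x^3)^2) := by positivity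
  have h1 : 0 ≤ ((39/100) * ((1)*1+(21/13)*x+(-119/39)*x^2)^2 + (203/650) * ((1)*x+(471/406)*x^2)^2 + (89969/121800) * ((1)*x^2)^2) := by positivity
  have h2 := mul_nonneg h h1
  linarith

theorem quad_nonneg {A B C : ℝ} (hC : 0 < C) (h : B ^ 2 ≤ 4 * A * C) (P X : ℝ) :
    0 ≤ A * P ^ 2 + B * P * X + C * X ^ 2 := by
  have h1 : 4 * C * (A * P ^ 2 + B * P * X + C * X ^ 2) =
      (2 * C * X + B * P) ^ 2 + (4 * A * C - B ^ 2) * P ^ 2 := by ring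
  have h2 : 0 ≤ (4 * A * C - B ^ 2) * P ^ 2 := mul_nonneg (by linarith) (sq_nonneg _)
  have h3 : 0 ≤ 4 * C * (A * P ^ 2 + B * P * X + C * X ^ 2) := by
    rw [h1]; have := sq_nonneg (2 * C * X + B * P); linarith
  exact nonneg_of_mul_nonneg_right h3 (by linarith)

/-- the flat block, `0 ≤ Q ≤ 1` -/
theorem flat {x Q : ℝ} (hx : 3 * x ^ 2 ≤ 2) (hQ0 : 0 ≤ Q) (hQ1 : Q ≤ 1) (P X : ℝ) :
    0 ≤ (6/25 + 193/200*x + 12/25*x^2 - 39/20*x^3) * P ^ 2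
      + (-(3/10) * x + 2 * (1/10 + 19/100 * Q) + 6/25 * Q * x - 39/100 * Q) * P * X
      + ((14/25 - 3/20 * Q) * (3 / (1 + 6/5 * x^2) - 1) - 1/4) * X ^ 2 := by
  have hk : 0 < 1 + 6/5 * x^2 := by positivity
  have c0 : 0 < (14/25 : ℝ) * (3 / (1 + 6/5 * x^2) - 1) - 1/4 := by
    have : (14/25 : ℝ) * (3 / (1 + 6/5 * x^2) - 1) - 1/4 = (87/100 - 243/250 * x^2) / (1 + 6/5 * x^2) := by
      field_simp; ring
    rw [this]
    exact div_pos (by nlinarith) hk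
  have c1 : 0 < (41/100 : ℝ) * (3 / (1 + 6/5 * x^2) - 1) - 1/4 := by
    have : (41/100 : ℝ) * (3 / (1 + 6/5 * x^2) - 1) - 1/4 = (57/100 - 99/125 * x^2) / (1 + 6/5 * x^2) := by
      field_simp; ring
    rw [this]
    exact div_pos (by nlinarith) hk
  have f0 := quad_nonneg (A := 6/25 + 193/200*x + 12/25*x^2 - 39/20*x^3) (B := 1/5 - 3/10 * x) c0 (by
    have e : (1/5 - 3/10 * x) ^ 2 = ((1/5 - 3/10 * x) ^ 2 * (1 + 6/5 * x^2)) / (1 + 6/5 * x^2) := by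
      field_simp
    have e2 : 4 * (6/25 + 193/200*x + 12/25*x^2 - 39/20*x^3) *
        ((14/25 : ℝ) * (3 / (1 + 6/5 * x^2) - 1) - 1/4) =
        (4 * (6/25 + 193/200*x + 12/25*x^2 - 39/20*x^3) * (87/100 - 243/250 * x^2)) /
          (1 + 6/5 * x^2) := by
      field_simp; ring
    rw [e, e2]
    refine div_le_div_of_nonneg_right ?_ hk.le
    have := p0_nonneg hx
    nlinarith) P X
  have f1 := quad_nonneg (A := 6/25 + 193/200*x + 12/25*x^2 - 39/20*x^3) (B := 19/100 - 3/50 * x) c1 (by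
    have e : (19/100 - 3/50 * x) ^ 2 = ((19/100 - 3/50 * x) ^ 2 * (1 + 6/5 * x^2)) / (1 + 6/5 * x^2) := by
      field_simp
    have e2 : 4 * (6/25 + 193/200*x + 12/25*x^2 - 39/20*x^3) *
        ((41/100 : ℝ) * (3 / (1 + 6/5 * x^2) - 1) - 1/4) =
        (4 * (6/25 + 193/200*x + 12/25*x^2 - 39/20*x^3) * (57/100 - 99/125 * x^2)) /
          (1 + 6/5 * x^2) := by
      field_simp; ring
    rw [e, e2]
    refine div_le_div_of_nonneg_right ?_ hk.le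
    have := p1_nonneg hx
    nlinarith) P X
  have m0 := mul_nonneg (sub_nonneg.2 hQ1) f0
  have m1 := mul_nonneg hQ0 f1
  have : (6/25 + 193/200*x + 12/25*x^2 - 39/20*x^3) * P ^ 2
      + (-(3/10) * x + 2 * (1/10 + 19/100 * Q) + 6/25 * Q * x - 39/100 * Q) * P * X
      + ((14/25 - 3/20 * Q) * (3 / (1 + 6/5 * x^2) - 1) - 1/4) * X ^ 2 =
      (1 - Q) * ((6/25 + 193/200*x + 12/25*x^2 - 39/20*x^3) * P ^ 2 + (1/5 - 3/10 * x) * P * X
        + (14/25 * (3 / (1 + 6/5 * x^2) - 1) - 1/4) * X ^ 2)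
      + Q * ((6/25 + 193/200*x + 12/25*x^2 - 39/20*x^3) * P ^ 2 + (19/100 - 3/50 * x) * P * X
        + (41/100 * (3 / (1 + 6/5 * x^2) - 1) - 1/4) * X ^ 2) := by ring
  rw [this]; linarith

/-- the scalar inequality -/
theorem scal {x Q σ : ℝ} (hx : 3 * x ^ 2 ≤ 2) (hQ0 : 0 ≤ Q) (hQ1 : Q ≤ 1) (hσ : 0 ≤ σ)
    (hap : σ ^ 2 ≤ 3/10 * (1 - Q ^ 2)) :
    0 ≤ 3 * (14/25 - 3/20 * Q) - 11/10 - σ * (3 * (1/10 + 19/100 * Q) - 39/100 * Q)
      + σ ^ 2 * (6/25 - 39/100 * (3 * x ^ 3 - 3/2 * x)) := by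
  have hy : 0 ≤ 6/25 - 39/100 * (3 * x ^ 3 - 3/2 * x) := by
    have hx2 : 0 ≤ 2/3 - x^2 := by linarith
    nlinarith [mul_nonneg hx2 (sq_nonneg (x + 1)), mul_nonneg hx2 (sq_nonneg (x - 1)), sq_nonneg (x - 1), sq_nonneg (x+1), sq_nonneg (x + 2/5), sq_nonneg (x-2/5), mul_nonneg hx2 (sq_nonneg (x + 2/5)), mul_nonneg hx2 (sq_nonneg (x - 2/5))]
  have h2 := mul_nonneg (sq_nonneg σ) hy
  nlinarith [sq_nonneg (σ - 1/2), mul_nonneg hσ hQ0, mul_nonneg hσ (sub_nonneg.2 hQ1)]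

/-- boundary cubic -/
theorem bdry {h : ℝ} (h0 : 0 ≤ h) (h1 : h ≤ 1) :
    0 ≤ 29/100 - 27/40 * h - 39/100 * h^2 + 123/100 * h^3 := by
  nlinarith [mul_nonneg h0 (sq_nonneg (h - 546/1000)), sq_nonneg (h - 546/1000)]

set_option maxHeartbeats 1000000 in
/-- the block inequality of direction `k` -/
theorem block {ρ x s Q q s0 X1 w T : ℝ} (hρ : 0 < ρ) (hx : 3 * x ^ 2 ≤ 2) (hQ0 : 0 ≤ Q)
    (hQ1 : Q ≤ 1) (hq : Q = q + s ^ 2) (hq0 : 0 ≤ q) (hs : 0 ≤ s)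
    (hap : (s * ρ) ^ 2 ≤ 3/10 * (1 - Q ^ 2))
    (hT : 3 * X1 ^ 2 / (ρ ^ 2 * (1 + 6/5 * x ^ 2)) ≤ T) :
    0 ≤ (((14/25 - 3/20 * Q) / ρ) * (3 * ρ ^ 2) - 3 * s * (ρ ^ 2 * (1/10 + 19/100 * Q))
        + (6/25 * ρ * Q) * ρ ^ 2 + (-(39/100) * Q) * (ρ ^ 3 * (3 * x ^ 3 - 3/2 * x) - s * ρ ^ 2)
        - 11/10 * ρ) * s0 ^ 2
      + (Real.sqrt q) ^ 2 * (ρ ^ 3 * (19/50 * x + 12/25 * x ^ 2 - 39/50 * x ^ 3)) * s0 ^ 2
      + Real.sqrt q * s0 * ((-(3/10) * x + 2 * (1/10 + 19/100 * Q) + 6/25 * Q * x - 39/100 * Q) * X1)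
      + (14/25 - 3/20 * Q) / ρ * T - (14/25 - 3/20 * Q) / ρ ^ 3 * X1 ^ 2
      + w * (1 / ρ * X1) + ρ * w ^ 2 := by
  have hk : 0 < 1 + 6/5 * x^2 := by positivity
  set S : ℝ := Real.sqrt q * s0 with hS
  have hS2 : (Real.sqrt q) ^ 2 * s0 ^ 2 = S ^ 2 := by rw [hS]; ring
  have hqs : (Real.sqrt q) ^ 2 = q := Real.sq_sqrt hq0
  set X : ℝ := X1 / ρ ^ 2 with hX
  have hX1 : X1 = ρ ^ 2 * X := by rw [hX]; field_simp
  have hf := flat hx hQ0 hQ1 (ρ * S) X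
  have hsc := scal (σ := s * ρ) hx hQ0 hQ1 (by positivity) hap
  have hG : 0 ≤ (14/25 - 3/20 * Q) / ρ := by
    apply div_nonneg _ hρ.le; linarith
  have hT' := mul_le_mul_of_nonneg_left hT hG
  have hm := mul_nonneg hρ.le (mul_nonneg hsc (sq_nonneg s0))
  have hm2 := mul_nonneg hρ.le hf
  have hm3 := mul_nonneg hρ.le (sq_nonneg (w + X / 2))
  have e1 : (14/25 - 3/20 * Q) / ρ * (3 * X1 ^ 2 / (ρ ^ 2 * (1 + 6/5 * x ^ 2))) =
      ρ * ((14/25 - 3/20 * Q) * (3 / (1 + 6/5 * x^2))) * X ^ 2 := by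
    rw [hX1]; field_simp
  have e2 : (14/25 - 3/20 * Q) / ρ ^ 3 * X1 ^ 2 = ρ * (14/25 - 3/20 * Q) * X ^ 2 := by
    rw [hX1]; field_simp
  have e3 : w * (1 / ρ * X1) = ρ * (w * X) := by
    rw [hX1]; field_simp
  have e4 : ((14/25 - 3/20 * Q) / ρ) * (3 * ρ ^ 2) = 3 * ρ * (14/25 - 3/20 * Q) := by
    field_simp
  rw [e1] at hT'
  rw [e2, e3, e4]
  have hqs0 : q * s0 ^ 2 = S ^ 2 := by rw [← hS2, hqs]
  have hQs : Q * s0 ^ 2 = S ^ 2 + s ^ 2 * s0 ^ 2 := by rw [hq, add_mul, hqs0]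
  have e5 : (Real.sqrt q) ^ 2 * (ρ ^ 3 * (19/50 * x + 12/25 * x ^ 2 - 39/50 * x ^ 3)) * s0 ^ 2 =
      ρ ^ 3 * (19/50 * x + 12/25 * x ^ 2 - 39/50 * x ^ 3) * S ^ 2 := by rw [← hS2]; ring
  rw [e5, hX1]
  have e6 : (3 * ρ * (14/25 - 3/20 * Q) - 3 * s * (ρ ^ 2 * (1/10 + 19/100 * Q))
        + (6/25 * ρ * Q) * ρ ^ 2 + (-(39/100) * Q) * (ρ ^ 3 * (3 * x ^ 3 - 3/2 * x) - s * ρ ^ 2)
        - 11/10 * ρ) * s0 ^ 2 =
      ρ * (3 * (14/25 - 3/20 * Q) - 11/10 - (s * ρ) * (3 * (1/10 + 19/100 * Q) - 39/100 * Q)) * s0 ^ 2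
        + ρ ^ 3 * (6/25 - 39/100 * (3 * x ^ 3 - 3/2 * x)) * (Q * s0 ^ 2) := by ring
  rw [e6, hQs]
  nlinarith [hT', hm, hm2, hm3]

end Cert3

end Crest.Agent.R097
end

-- ▼ part R097/Cert3b
section

/-!
# Row 97: the certificate for `n = 3`: coefficient functions
-/

set_option autoImplicit false
open scoped BigOperators

namespace Crest.Agent.R097

namespace Cert3

/-- `Z = √P₂` -/
noncomputable def cZ : Coef where
  f := fun z => Real.sqrt (z 0)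
  d := ![fun z => 1/2 * (Real.sqrt (z 0))⁻¹, fun _ => 0, fun _ => 0, fun _ => 0]

/-- `γ` -/
noncomputable def cga : Coef where
  f := fun z => (14/25 - 3/20 * (z 2 + z 3 ^ 2)) * (Real.sqrt (z 0))⁻¹
  d := ![fun z => -(1/2 * (14/25 - 3/20 * (z 2 + z 3 ^ 2)) * (Real.sqrt (z 0))⁻¹ ^ 3), fun _ => 0,
    fun z => -(3/20) * (Real.sqrt (z 0))⁻¹, fun z => -(3/10) * z 3 * (Real.sqrt (z 0))⁻¹]

/-- `y₀` -/
noncomputable def c0 : Coef where
  f := fun z => z 0 * (1/10 + 19/100 * (z 2 + z 3 ^ 2))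
  d := ![fun z => 1/10 + 19/100 * (z 2 + z 3 ^ 2), fun _ => 0, fun z => 19/100 * z 0,
    fun z => 19/50 * z 3 * z 0]

/-- `y₁` -/
noncomputable def c1 : Coef where
  f := fun z => 6/25 * Real.sqrt (z 0) * (z 2 + z 3 ^ 2)
  d := ![fun z => 3/25 * (z 2 + z 3 ^ 2) * (Real.sqrt (z 0))⁻¹, fun _ => 0,
    fun z => 6/25 * Real.sqrt (z 0), fun z => 12/25 * z 3 * Real.sqrt (z 0)]

/-- `y₂` -/
noncomputable def c2 : Coef where
  f := fun z => -(39/100) * (z 2 + z 3 ^ 2)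
  d := ![fun _ => 0, fun _ => 0, fun _ => -(39/100), fun z => -(39/50) * z 3]

/-- `y₃` -/
noncomputable def c3 : Coef where
  f := fun _ => 0
  d := ![fun _ => 0, fun _ => 0, fun _ => 0, fun _ => 0]

/-- the data -/
noncomputable def data : CertData where
  ga := cga
  y0 := c0
  y1 := c1
  y2 := c2
  y3 := c3
  Z := cZ

lemma hp (i : Fin 4) (z : Fin 4 → ℝ) : HasFDerivAt (fun z : Fin 4 → ℝ => z i)
    (ContinuousLinearMap.proj i : (Fin 4 → ℝ) →L[ℝ] ℝ) z :=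
  (ContinuousLinearMap.proj (R := ℝ) (φ := fun _ : Fin 4 => ℝ) i).hasFDerivAt

lemma hs (z : Fin 4 → ℝ) (h : 0 < z 0) : HasFDerivAt (fun z : Fin 4 → ℝ => Real.sqrt (z 0))
    ((1 / (2 * Real.sqrt (z 0))) • (ContinuousLinearMap.proj 0 : (Fin 4 → ℝ) →L[ℝ] ℝ)) z :=
  (hp 0 z).sqrt h.ne'

lemma hsi (z : Fin 4 → ℝ) (h : 0 < z 0) : HasFDerivAt (fun z : Fin 4 → ℝ => (Real.sqrt (z 0))⁻¹)
    ((-(1/2 * (Real.sqrt (z 0))⁻¹ ^ 3)) • (ContinuousLinearMap.proj 0 : (Fin 4 → ℝ) →L[ℝ] ℝ)) z := by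
  have hne : Real.sqrt (z 0) ≠ 0 := (Real.sqrt_pos.2 h).ne'
  have h1 : HasFDerivAt (fun z : Fin 4 → ℝ => (Real.sqrt (z 0))⁻¹) _ z :=
    (hasDerivAt_inv hne).comp_hasFDerivAt z (hs z h)
  refine h1.congr_fderiv ?_
  rw [smul_smul]
  congr 1
  field_simp

lemma hQ (z : Fin 4 → ℝ) : HasFDerivAt (fun z : Fin 4 → ℝ => z 2 + z 3 ^ 2)
    ((ContinuousLinearMap.proj 2 : (Fin 4 → ℝ) →L[ℝ] ℝ) + (2 * z 3) •
      (ContinuousLinearMap.proj 3 : (Fin 4 → ℝ) →L[ℝ] ℝ)) z := by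
  have h1 := (hp 2 z).add ((hp 3 z).pow 2)
  refine h1.congr_fderiv ?_
  ext v
  simp

lemma cs : Continuous fun z : Fin 4 → ℝ => Real.sqrt (z 0) :=
  Real.continuous_sqrt.comp (continuous_apply 0)

lemma csi : ContinuousOn (fun z : Fin 4 → ℝ => (Real.sqrt (z 0))⁻¹) {z | 0 < z 0} :=
  cs.continuousOn.inv₀ fun z hz => (Real.sqrt_pos.2 hz).ne'

lemma cQ : Continuous fun z : Fin 4 → ℝ => z 2 + z 3 ^ 2 :=
  (continuous_apply 2).add ((continuous_apply 3).pow 2)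

lemma okZ : cZ.Ok where
  has := fun z hz => by
    refine (hs z hz).congr_fderiv ?_
    ext v
    simp [cZ, Fin.sum_univ_four, mul_comm]
  cont := fun i => by
    fin_cases i
    · exact continuousOn_const.mul csi
    · exact continuousOn_const
    · exact continuousOn_const
    · exact continuousOn_const

lemma okga : cga.Ok where
  has := fun z hz => by
    have h := (((hQ z).const_mul (3/20 : ℝ)).const_sub (14/25 : ℝ)).mul (hsi z hz)
    refine h.congr_fderiv ?_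
    ext v
    simp [cga, Fin.sum_univ_four]
    ring
  cont := fun i => by
    fin_cases i
    · exact (((continuousOn_const.mul (continuousOn_const.sub
        (continuousOn_const.mul cQ.continuousOn))).mul (csi.pow 3))).neg
    · exact continuousOn_const
    · exact continuousOn_const.mul csi
    · exact (continuousOn_const.mul (continuous_apply 3).continuousOn).mul csi

lemma ok0 : c0.Ok where
  has := fun z hz => by
    have h := (hp 0 z).mul (((hQ z).const_mul (19/100 : ℝ)).const_add (1/10 : ℝ))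
    refine h.congr_fderiv ?_
    ext v
    simp [c0, Fin.sum_univ_four]
    ring
  cont := fun i => by
    fin_cases i
    · exact (continuous_const.add (continuous_const.mul cQ)).continuousOn
    · exact continuousOn_const
    · exact (continuous_const.mul (continuous_apply 0)).continuousOn
    · exact ((continuous_const.mul (continuous_apply 3)).mul (continuous_apply 0)).continuousOn

lemma ok1 : c1.Ok where
  has := fun z hz => by
    have h := (((hs z hz).const_mul (6/25 : ℝ))).mul (hQ z)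
    refine h.congr_fderiv ?_
    ext v
    simp [c1, Fin.sum_univ_four]
    ring
  cont := fun i => by
    fin_cases i
    · exact (continuousOn_const.mul cQ.continuousOn).mul csi
    · exact continuousOn_const
    · exact (continuous_const.mul cs).continuousOn
    · exact ((continuous_const.mul (continuous_apply 3)).mul cs).continuousOn

lemma ok2 : c2.Ok where
  has := fun z hz => by
    have h := (hQ z).const_mul (-(39/100) : ℝ)
    refine h.congr_fderiv ?_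
    ext v
    simp [c2, Fin.sum_univ_four]
    ring
  cont := fun i => by
    fin_cases i
    · exact continuousOn_const
    · exact continuousOn_const
    · exact continuousOn_const
    · exact (continuous_const.mul (continuous_apply 3)).continuousOn

lemma ok3 : c3.Ok where
  has := fun z hz => by
    have h : HasFDerivAt (fun _ : Fin 4 → ℝ => (0 : ℝ)) (0 : (Fin 4 → ℝ) →L[ℝ] ℝ) z :=
      hasFDerivAt_const 0 z
    refine h.congr_fderiv ?_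
    ext v
    simp [c3, Fin.sum_univ_four]
  cont := fun i => by
    fin_cases i <;> exact continuousOn_const

lemma zv0 {n : ℕ} (lam g : Fin n → ℝ) (s : ℝ) : zv lam g s 0 = ∑ i, lam i ^ 2 := rfl
lemma zv2 {n : ℕ} (lam g : Fin n → ℝ) (s : ℝ) : zv lam g s 2 = ∑ i, g i ^ 2 := rfl
lemma zv3 {n : ℕ} (lam g : Fin n → ℝ) (s : ℝ) : zv lam g s 3 = s := rfl

/-- eigenvalue identities for `n = 3` -/
theorem lam3 (lam : Fin 3 → ℝ) (h : ∑ i, lam i = 0) (k : Fin 3) :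
    3 * lam k ^ 2 ≤ 2 * ∑ i, lam i ^ 2 ∧
      ∑ i, lam i ^ 3 = 3 * lam k ^ 3 - 3/2 * (∑ i, lam i ^ 2) * lam k := by
  simp only [Fin.sum_univ_three] at h ⊢
  have h2 : lam 2 = -lam 0 - lam 1 := by linarith
  fin_cases k
  · simp only [Fin.zero_eta, h2]
    constructor
    · nlinarith [sq_nonneg (lam 0 + 2 * lam 1)]
    · ring
  · simp only [Fin.mk_one, h2]
    constructor
    · nlinarith [sq_nonneg (2 * lam 0 + lam 1)]
    · ring
  · have e : (⟨2, by norm_num⟩ : Fin 3) = 2 := rfl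
    simp only [e, h2]
    constructor
    · nlinarith [sq_nonneg (lam 0 - lam 1)]
    · ring

open TEl in
theorem PJ (lam g : Fin 3 → ℝ) (s : ℝ) (τ : Fin 3 → Fin 3 → Fin 3 → ℝ) (h : Adm lam g s)
    (ht : STF τ) :
    (∑ k, data.Z.D lam g s τ k ^ 2) / (4 * data.Z.f (zv lam g s)) +
      11/10 * data.Z.f (zv lam g s) ≤ data.divE lam g s τ := by
  set a : ℝ := ∑ i, lam i ^ 2 with ha
  have hpos : 0 < a := h.pos
  set ρ : ℝ := Real.sqrt a with hρd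
  have hρ : 0 < ρ := Real.sqrt_pos.2 hpos
  have hρ2 : ρ ^ 2 = a := Real.sq_sqrt hpos.le
  set q : ℝ := ∑ i, g i ^ 2 with hqd
  have hq0 : 0 ≤ q := Finset.sum_nonneg fun i _ => sq_nonneg _
  have hQ1 : q + s ^ 2 ≤ 1 := h.q1
  have hQ0 : 0 ≤ q + s ^ 2 := by positivity
  have hs0 := h.s0
  have hap : (s * ρ) ^ 2 ≤ 3/10 * (1 - (q + s ^ 2) ^ 2) := by
    have := h.ap
    rw [← ha, ← hqd] at this
    rw [mul_pow, hρ2]
    norm_num at this ⊢
    linarith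
  refine PJ_of_blocks data (11/10) lam g s τ ht ?_ ?_ (fun _ => 0) (by norm_num) ?_
  · show 0 < Real.sqrt (zv lam g s 0)
    rw [zv0, ← ha]; exact hρ
  · show 0 ≤ (14/25 - 3/20 * (zv lam g s 2 + zv lam g s 3 ^ 2)) * (Real.sqrt (zv lam g s 0))⁻¹
    rw [zv0, zv2, zv3, ← ha, ← hqd, ← hρd]
    have : 0 ≤ ρ⁻¹ := by positivity
    exact mul_nonneg (by linarith) this
  · intro k s0 w t htr
    set x : ℝ := lam k / ρ with hx
    have hlam : lam k = ρ * x := by rw [hx]; field_simp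
    obtain ⟨hk1, hk2⟩ := lam3 lam h.tr k
    have hx2 : 3 * x ^ 2 ≤ 2 := by
      rw [← ha, hlam, mul_pow, hρ2] at hk1
      have : a * (3 * x ^ 2) ≤ a * 2 := by linarith
      exact le_of_mul_le_mul_left this hpos
    -- the T-form
    have hG : 3 * (∑ i, lam i * t i) ^ 2 / (ρ ^ 2 * (1 + 6/5 * x ^ 2)) ≤ G3 k t := by
      have hK : 0 < ρ ^ 2 * (1 + 6/5 * x ^ 2) := by positivity
      have h1 := G3_ge' k t lam htr h.tr (3 * (∑ i, lam i * t i) / (ρ ^ 2 * (1 + 6/5 * x ^ 2))) 0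
      have e : K11 3 (lam k) (ps lam 2) = ρ ^ 2 * (1 + 6/5 * x ^ 2) / 3 := by
        rw [K11, ps, ← ha, hlam, ← hρ2]
        push_cast
        ring
      rw [e] at h1
      refine le_trans (le_of_eq ?_) h1
      field_simp
      ring
    have hb := block (T := G3 k t) (X1 := ∑ i, lam i * t i) (s0 := s0) (w := w) hρ hx2 hQ0 hQ1
      (rfl : q + s ^ 2 = q + s ^ 2) hq0 hs0 hap hG
    refine le_trans hb (le_of_eq ?_)
    have hP3 : ps lam 3 = ρ ^ 3 * (3 * x ^ 3 - 3/2 * x) := by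
      rw [ps, hk2, ← ha, hlam, ← hρ2]; ring
    have hP2 : ps lam 2 = ρ ^ 2 := by rw [ps, hρ2]
    simp only [Fb, base, data, cga, c0, c1, c2, c3, cZ, zv0, zv2, zv3, hP2, hP3, ← ha, ← hqd,
      ← hρd, hlam, Matrix.cons_val_zero, Matrix.cons_val_one, Matrix.cons_val]
    have hρi : ρ⁻¹ = 1 / ρ := (one_div ρ).symm
    rw [← hρ2]
    push_cast
    field_simp
    ring

theorem BJ (lam : Fin 3 → ℝ) (k0 : Fin 3) (H : ℝ) (h1 : ∑ i, lam i = 0)
    (h2 : 0 < ∑ i, lam i ^ 2) (hH : 0 ≤ H) (hk : lam k0 = -H) :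
    0 ≤ H * data.Z.f ![∑ i, lam i ^ 2, ∑ i, lam i ^ 3, 1, 0] +
      data.y0.f ![∑ i, lam i ^ 2, ∑ i, lam i ^ 3, 1, 0] -
      H * data.y1.f ![∑ i, lam i ^ 2, ∑ i, lam i ^ 3, 1, 0] +
      H ^ 2 * data.y2.f ![∑ i, lam i ^ 2, ∑ i, lam i ^ 3, 1, 0] -
      H ^ 3 * data.y3.f ![∑ i, lam i ^ 2, ∑ i, lam i ^ 3, 1, 0] -
      data.ga.f ![∑ i, lam i ^ 2, ∑ i, lam i ^ 3, 1, 0] *
        (2 * H * (∑ i, lam i ^ 2) + ∑ i, lam i ^ 3) := by
  obtain ⟨hk1, hk2⟩ := lam3 lam h1 k0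
  rw [hk2]
  set a : ℝ := ∑ i, lam i ^ 2 with ha
  set ρ : ℝ := Real.sqrt a with hρd
  have hρ : 0 < ρ := Real.sqrt_pos.2 h2
  have hρ2 : ρ ^ 2 = a := Real.sq_sqrt h2.le
  set x : ℝ := H / ρ with hx
  have hHx : H = ρ * x := by rw [hx]; field_simp
  have hx0 : 0 ≤ x := div_nonneg hH hρ.le
  have hx1 : x ≤ 1 := by
    rw [hk, neg_sq, hHx, mul_pow, hρ2] at hk1
    have : a * (3 * x ^ 2) ≤ a * 2 := by linarith
    have := le_of_mul_le_mul_left this h2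
    nlinarith
  have hb := mul_nonneg (sq_nonneg ρ) (bdry hx0 hx1)
  simp only [data, cZ, c0, c1, c2, c3, cga, Matrix.cons_val_zero, Matrix.cons_val_one,
    Matrix.cons_val, hk]
  rw [← hρd, hHx, ← hρ2]
  refine le_trans hb (le_of_eq ?_)
  field_simp
  ring

end Cert3

end Crest.Agent.R097
end

-- ▼ part R097/Cert3
section

/-!
# Row 97: the certificate for `n = 3` (`d = 4`)
-/

set_option autoImplicit false
open scoped BigOperators

namespace Crest.Agent.R097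

namespace Cert3

theorem growthB : GrowthB 3 data := by
  refine ⟨1/2, by norm_num, by norm_num, fun R => ⟨1 + Real.sqrt R, fun lam g s h hR => ?_⟩⟩
  have hpos := h.pos
  have hs0 := h.s0
  have hQ1 := h.q1
  have hq0 : 0 ≤ ∑ i, g i ^ 2 := Finset.sum_nonneg fun i _ => sq_nonneg _
  set a : ℝ := ∑ i, lam i ^ 2 with ha
  set q : ℝ := ∑ i, g i ^ 2 with hqd
  set m : ℝ := Real.sqrt a with hm
  have hm0 : 0 < m := Real.sqrt_pos.2 hpos
  have hmR : m ≤ Real.sqrt R := Real.sqrt_le_sqrt hR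
  have hm2 : m ^ 2 = a := Real.sq_sqrt hpos.le
  set r : ℝ := Real.sqrt R with hr
  have hr0 : 0 < r := lt_of_lt_of_le hm0 hmR
  have e1 : (2 * (1/2 : ℝ)) = 1 := by norm_num
  have e2 : (2 * (1/2 : ℝ)) - 2 = -1 := by norm_num
  have e3 : (2 * (1/2 : ℝ)) - 3 = -2 := by norm_num
  have e4 : (2 * (1/2 : ℝ)) - 1 = 0 := by norm_num
  have e5 : m ^ (-2 : ℝ) = (m ^ 2)⁻¹ := by
    rw [Real.rpow_neg hm0.le]; norm_num
  rw [e2, e3, e4, e1, Real.rpow_one, Real.rpow_neg_one, Real.rpow_zero, e5]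
  have hQ0 : 0 ≤ q + s ^ 2 := by positivity
  have hs1 : s ≤ 1 := by nlinarith
  simp only [data, cZ, cga, c0, c1, c2, c3, zv0, zv2, zv3, ← ha, ← hqd, ← hm,
    Matrix.cons_val_zero, Matrix.cons_val_one, Matrix.cons_val]
  have hmi : 0 < m⁻¹ := inv_pos.2 hm0
  have hmm : m⁻¹ * m = 1 := inv_mul_cancel₀ hm0.ne'
  have hri : 1 ≤ r * m⁻¹ := by
    rw [← div_eq_mul_inv, le_div_iff₀ hm0]; linarith
  refine ⟨?_, ?_, ?_, ?_, ?_, ?_, ?_, ?_, ?_, ?_⟩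
  · nlinarith
  · rw [abs_of_nonneg (by positivity)]; nlinarith
  · rw [abs_zero]; positivity
  · rw [abs_zero]; positivity
  · rw [abs_zero]; positivity
  · rw [abs_of_nonneg (by positivity), ← hm2]
    have h1 : (1/10 + 19/100 * (q + s ^ 2)) ≤ 1 := by linarith
    have h2 : m ^ 2 * (1/10 + 19/100 * (q + s ^ 2)) ≤ m ^ 2 * 1 :=
      mul_le_mul_of_nonneg_left h1 (by positivity)
    nlinarith
  · rw [abs_of_nonneg (mul_nonneg (by linarith) hmi.le)]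
    exact mul_le_mul_of_nonneg_right (by linarith) hmi.le
  · rw [abs_of_nonneg (by positivity)]
    have h1 : 6/25 * m * (q + s ^ 2) ≤ 6/25 * m * 1 :=
      mul_le_mul_of_nonneg_left hQ1 (by positivity)
    linarith
  · rw [abs_mul, abs_neg, abs_of_nonneg hQ0, abs_of_nonneg (by norm_num : (0:ℝ) ≤ 39/100)]
    have : (1 + r) * m⁻¹ = m⁻¹ + r * m⁻¹ := by ring
    rw [this]; linarith
  · rw [abs_zero]; positivity

end Cert3

/-- **certificate for `d = 4`** -/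
theorem cert3 : Cert 3 Cert3.data (11/10) where
  okga := Cert3.okga
  ok0 := Cert3.ok0
  ok1 := Cert3.ok1
  ok2 := Cert3.ok2
  ok3 := Cert3.ok3
  okZ := Cert3.okZ
  Zpos := fun lam g s h => by
    show 0 < Real.sqrt (zv lam g s 0)
    rw [Cert3.zv0]; exact Real.sqrt_pos.2 h.pos
  lam_gt := by norm_num
  PJ := fun lam g s τ h ht => Cert3.PJ lam g s τ h ht
  BJ := fun lam k0 H h1 h2 hH hk => Cert3.BJ lam k0 H h1 h2 hH hk
  growth := Or.inr Cert3.growthB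

end Crest.Agent.R097
end

-- ▼ part R097/Link2
section

/-!
# Row 97: final assembly III (linker: helper169)

`S0128_of_cert45`: only the certificates in dimension `n = 4` and `n = 5` are left.
-/

set_option autoImplicit false
open MeasureTheory Metric Set Filter Topology
open scoped NNReal RealInnerProductSpace Gradient ContDiff Laplacian
open Crest.AnalysisR.PDE.OnePhase

namespace Crest.Agent.R097

/-- **S0128 from the certificates in the dimensions four and five** -/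
theorem S0128_of_cert45
    (h4 : ∃ (C : CertData) (Lam : ℝ), Cert 4 C Lam)
    (h5 : ∃ (C : CertData) (Lam : ℝ), Cert 5 C Lam)
    (d : ℕ) (hd1 : 1 ≤ d) (hd6 : d ≤ 6)
    (u : EuclideanSpace ℝ (Fin d) → ℝ) (G : EuclideanSpace ℝ (Fin d) → EuclideanSpace ℝ (Fin d))
    (hmin : IsGlobalMinimizer u G) (hhom : IsOneHomogeneous u)
    (hne : ¬ (u =ᵐ[volume] 0)) :
    ∃ e : EuclideanSpace ℝ (Fin d), ‖e‖ = 1 ∧ u =ᵐ[volume] fun x => max (inner ℝ x e) 0 :=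
  S0128_of_certs ⟨_, _, cert2⟩ ⟨_, _, cert3⟩ h4 h5 d hd1 hd6 u G hmin hhom hne

end Crest.Agent.R097
end

-- ▼ part R097C4/All
section

/-!
# Row 97: `Cert 4`
-/

set_option autoImplicit false

namespace Crest.Agent.R097C4

open Crest.Agent.R097 Crest.Agent.R097.KA

theorem cover4 : CoverS1 V4.P V4.D :=
  coverS1_of_charts (by simp [CQ.nOK, V4.P]) (by norm_num [CQ.Par.A0, V4.P])
    (by norm_num [CQ.Par.A0, V4.P]) N4pp.all N4pm.all N4mp.all N4mm.all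

theorem cert4 : ∃ (C : CertData) (Lam : ℝ), Cert 4 C Lam := ⟨_, _, V4.cert cover4⟩

end Crest.Agent.R097C4
end

-- ▼ part R097/SC8
section

/-!
# Row 97: gluing of `KB` runs on the two halves of a box (helper226)
-/

set_option autoImplicit false

namespace Crest.Agent.R097.SC

open KB

/-- a run on a split box from the runs on the two halves -/
theorem run_node {nv w sh : ℕ} {Xl M : List ℕ} {cls : List (List Ex)} {l r : Tr} {b : Box} (i : ℕ)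
    {bl br : Box} (el : bl = Box.setc b i (ba b i, (ba b i + bb b i) / 2))
    (er : br = Box.setc b i ((ba b i + bb b i) / 2, bb b i))
    (hl : run nv w sh Xl M cls l bl = true) (hr : run nv w sh Xl M cls r br = true) :
    run nv w sh Xl M cls (.node i l r) b = true := by
  subst el er
  unfold run stat at *
  rw [Bool.and_eq_true, Bool.and_eq_true, Bool.and_eq_true, Box.length_setc] at hl hr
  rw [Bool.and_eq_true, Bool.and_eq_true, Bool.and_eq_true]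
  refine ⟨hl.1, ?_⟩
  rw [chk, Bool.and_eq_true]
  exact ⟨hl.2, hr.2⟩

end Crest.Agent.R097.SC
end

-- ▼ part R097/V5S
section

/-!
# Row 97: scalar parts of the certificate, `n = 5`
-/

set_option autoImplicit false
set_option maxRecDepth 100000

namespace Crest.Agent.R097.V5

open CP SC KB

theorem runZ : run 4 203 10 [9, 3, 4, 4] [2048, 1374, 2048, 2386] (mkcls ⟨8, 2, 3, 3⟩ (up 0 ZA ++ dn 2 ZB) [G1 5, G2 1 1] 1 [[0, 0], [0, 1280], [1280, 0], [1280, 1280], [0, 5120], [5120, 0], [1280, 5120], [5120, 5120], [0, 20480], [1280, 20480], [5120, 20480]] [(0, 1000000), (1, 1000000)])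
    (.node 0 (.node 2 (.node 3 (.leaf 0) (.leaf 8)) (.node 3 (.leaf 0) (.node 1 (.node 0 (.leaf 0) (.node 3 (.leaf 2) (.node 2 (.node 1 (.node 0 (.leaf 4) (.node 3 (.node 2 (.leaf 3) (.node 1 (.node 0 (.leaf 2) (.node 2 (.leaf 6) (.leaf 5))) (.leaf 2))) (.leaf 12))) (.leaf 6)) (.node 1 (.node 0 (.leaf 6) (.leaf 5)) (.node 0 (.leaf 0) (.leaf 5)))))) (.leaf 2)))) (.node 2 (.node 3 (.leaf 0) (.node 1 (.node 0 (.node 3 (.leaf 3) (.leaf 10)) (.node 3 (.node 2 (.leaf 2) (.node 1 (.node 0 (.node 2 (.leaf 2) (.node 3 (.leaf 0) (.leaf 5))) (.node 2 (.node 3 (.leaf 2) (.leaf 11)) (.leaf 5))) (.leaf 2))) (.leaf 11))) (.node 0 (.node 3 (.leaf 1) (.leaf 9)) (.node 3 (.leaf 6) (.leaf 11))))) (.node 3 (.node 1 (.node 0 (.node 2 (.leaf 0) (.leaf 2)) (.node 2 (.node 3 (.leaf 0) (.leaf 2)) (.leaf 2))) (.node 0 (.leaf 0) (.node 2 (.leaf 0) (.leaf 2)))) (.node 1 (.node 0 (.node 3 (.node 2 (.node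 1 (.node 0 (.leaf 2) (.node 2 (.node 3 (.leaf 0) (.leaf 5)) (.node 3 (.leaf 2) (.leaf 5)))) (.leaf 2)) (.leaf 5)) (.node 2 (.node 1 (.node 0 (.node 3 (.node 2 (.node 1 (.node 0 (.node 2 (.leaf 6) (.node 3 (.leaf 2) (.leaf 5))) (.leaf 5)) (.leaf 10)) (.leaf 5)) (.leaf 5)) (.leaf 11)) (.leaf 10)) (.leaf 11))) (.node 3 (.node 2 (.node 1 (.node 0 (.node 2 (.node 3 (.leaf 2) (.leaf 11)) (.leaf 5)) (.leaf 5)) (.leaf 5)) (.leaf 11)) (.leaf 11))) (.node 0 (.node 3 (.leaf 2) (.leaf 7)) (.node 3 (.node 2 (.leaf 2) (.leaf 11)) (.leaf 11)))))))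
    (bx4 10 687 1193) = true :=
  (run_node 0 (bl := [(0, 512), (-687, 687), (0, 1024), (0, 1193)]) (br := [(512, 1024), (-687, 687), (0, 1024), (0, 1193)]) (by decide +kernel) (by decide +kernel)
    runZ_0 (run_node 2 (bl := [(512, 1024), (-687, 687), (0, 512), (0, 1193)]) (br := [(512, 1024), (-687, 687), (512, 1024), (0, 1193)]) (by decide +kernel) (by decide +kernel)
    runZ_1 (run_node 3 (bl := [(512, 1024), (-687, 687), (512, 1024), (0, 596)]) (br := [(512, 1024), (-687, 687), (512, 1024), (596, 1193)]) (by decide +kernel) (by decide +kernel)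
    runZ_2 (run_node 1 (bl := [(512, 1024), (-687, 0), (512, 1024), (596, 1193)]) (br := [(512, 1024), (0, 687), (512, 1024), (596, 1193)]) (by decide +kernel) (by decide +kernel)
    runZ_3 runZ_4))))

theorem rung : run 4 225 10 [11, 3, 4, 4] [2048, 1374, 2048, 2386] (mkcls ⟨10, 2, 3, 3⟩ (up 0 g) [G1 5, G2 1 1] 0 [[0, 0]] [])
    (.node 0 (.leaf 0) (.node 2 (.node 3 (.leaf 0) (.leaf 0)) (.node 3 (.leaf 0) (.leaf 0))))
    (bx4 10 687 1193) = true :=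
  rung_0

theorem runB : run 4 264 10 [13, 4, 7, 1] [2048, 1374, 1832, 1] (mkcls ⟨12, 3, 6, 0⟩ (bjF g p0A p0B p1 p2 [] ZA ZB) (G3 5) 0 [[0], [12]] [(0, 1000000)])
    (.node 0 (.node 1 (.node 2 (.leaf 0) (.leaf 0)) (.node 2 (.node 0 (.leaf 0) (.node 1 (.leaf 0) (.node 2 (.leaf 2) (.node 1 (.leaf 0) (.leaf 0))))) (.node 0 (.leaf 0) (.node 1 (.leaf 0) (.node 2 (.node 1 (.leaf 0) (.leaf 0)) (.leaf 0)))))) (.node 1 (.node 2 (.node 0 (.leaf 0) (.node 1 (.node 2 (.node 0 (.leaf 0) (.node 2 (.node 1 (.node 0 (.node 1 (.node 2 (.node 0 (.leaf 0) (.node 2 (.node 1 (.leaf 1) (.leaf 1)) (.leaf 2))) (.leaf 2)) (.node 2 (.node 1 (.node 0 (.leaf 0) (.node 2 (.leaf 1) (.leaf 0))) (.leaf 1)) (.leaf 2))) (.node 1 (.node 2 (.node 0 (.node 2 (.node 1 (.leaf 1) (.leaf 1)) (.leaf 2)) (.node 2 (.node 1 (.leaf 1) (.leaf 1)) (.leaf 2))) (.leaf 2)) (.node 2 (.node 1 (.node 0 (.node 2 (.leaf 1) (.leaf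 0)) (.node 2 (.leaf 1) (.leaf 0))) (.node 0 (.node 2 (.leaf 2) (.leaf 0)) (.node 2 (.leaf 2) (.leaf 0)))) (.leaf 2)))) (.node 1 (.node 0 (.node 2 (.leaf 0) (.leaf 0)) (.node 2 (.leaf 0) (.leaf 0))) (.leaf 0))) (.leaf 0))) (.leaf 2)) (.node 2 (.node 1 (.node 0 (.leaf 0) (.node 2 (.leaf 0) (.node 2 (.leaf 0) (.leaf 0)))) (.node 0 (.leaf 0) (.node 2 (.leaf 2) (.leaf 0)))) (.leaf 0)))) (.leaf 0)) (.node 2 (.node 0 (.node 1 (.node 2 (.leaf 0) (.leaf 0)) (.node 2 (.leaf 2) (.node 1 (.leaf 0) (.leaf 0)))) (.node 1 (.node 2 (.leaf 0) (.node 0 (.node 2 (.node 1 (.leaf 0) (.leaf 0)) (.leaf 0)) (.node 2 (.node 1 (.leaf 0) (.leaf 0)) (.leaf 0)))) (.node 2 (.leaf 2) (.node 1 (.node 0 (.leaf 0) (.node 2 (.node 1 (.node 0 (.leaf 0) (.node 2 (.leaf 2) (.node 1 (.node 0 (.leaf 0) (.node 2 (.leaf 2) (.node 2 (.leaf 1) (.leaf 0)))) (.leaf 2)))) (.leaf 2)) (.node 2 (.node 1 (.node 0 (.leaf 0) (.node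 1 (.leaf 0) (.node 0 (.leaf 0) (.node 2 (.node 1 (.leaf 0) (.node 0 (.node 2 (.leaf 2) (.leaf 0)) (.node 2 (.leaf 2) (.leaf 0)))) (.leaf 0))))) (.node 0 (.node 1 (.node 0 (.leaf 0) (.node 2 (.leaf 2) (.leaf 0))) (.leaf 1)) (.node 1 (.node 0 (.node 2 (.leaf 2) (.leaf 0)) (.node 2 (.leaf 2) (.node 2 (.node 1 (.leaf 0) (.leaf 1)) (.leaf 0)))) (.leaf 1)))) (.leaf 0)))) (.node 0 (.node 2 (.leaf 2) (.node 2 (.leaf 2) (.node 1 (.leaf 0) (.leaf 2)))) (.node 2 (.leaf 2) (.node 2 (.leaf 2) (.node 1 (.node 0 (.node 2 (.leaf 1) (.leaf 0)) (.node 2 (.leaf 1) (.leaf 0))) (.leaf 2))))))))) (.node 0 (.node 1 (.leaf 0) (.node 2 (.node 1 (.leaf 0) (.leaf 0)) (.node 1 (.leaf 0) (.node 0 (.leaf 0) (.node 2 (.node 1 (.leaf 0) (.node 0 (.leaf 0) (.node 2 (.leaf 0) (.node 1 (.leaf 0) (.node 0 (.node 2 (.leaf 0) (.node 2 (.leaf 0) (.node 1 (.leaf 0) (.node 0 (.leaf 0) (.node 2 (.leaf 0) (.leaf 2))))))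 (.node 2 (.leaf 0) (.node 2 (.leaf 0) (.node 1 (.leaf 0) (.node 0 (.node 2 (.leaf 0) (.leaf 2)) (.node 2 (.leaf 0) (.leaf 2))))))))))) (.node 2 (.node 1 (.leaf 0) (.node 0 (.node 1 (.leaf 0) (.node 0 (.leaf 0) (.node 2 (.node 1 (.leaf 0) (.leaf 2)) (.node 2 (.node 1 (.leaf 0) (.leaf 2)) (.leaf 2))))) (.node 1 (.leaf 0) (.node 0 (.node 2 (.node 1 (.leaf 0) (.leaf 2)) (.node 2 (.node 1 (.leaf 0) (.leaf 2)) (.leaf 2))) (.node 2 (.node 1 (.leaf 0) (.leaf 2)) (.node 2 (.node 1 (.node 0 (.node 0 (.node 1 (.leaf 0) (.leaf 2)) (.node 1 (.leaf 0) (.leaf 2))) (.node 0 (.node 1 (.leaf 0) (.leaf 2)) (.node 1 (.leaf 0) (.leaf 2)))) (.leaf 2)) (.leaf 2))))))) (.node 1 (.leaf 0) (.node 0 (.node 2 (.node 1 (.leaf 0) (.leaf 2)) (.node 1 (.leaf 0) (.leaf 2))) (.node 2 (.node 1 (.leaf 0) (.leaf 2)) (.node 1 (.leaf 0) (.leaf 2))))))))))) (.node 1 (.leaf 0) (.node 2 (.node 1 (.leaf 0) (.node 0 (.leaf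 0) (.node 2 (.node 1 (.leaf 0) (.node 0 (.leaf 0) (.node 2 (.leaf 1) (.leaf 0)))) (.leaf 0)))) (.node 1 (.leaf 0) (.node 0 (.node 2 (.leaf 0) (.node 2 (.node 1 (.leaf 0) (.node 0 (.node 1 (.leaf 0) (.node 0 (.node 2 (.node 1 (.leaf 0) (.leaf 2)) (.node 2 (.node 1 (.node 0 (.node 0 (.node 1 (.leaf 0) (.leaf 2)) (.leaf 0)) (.leaf 0)) (.leaf 2)) (.leaf 2))) (.node 2 (.leaf 0) (.node 2 (.node 1 (.leaf 0) (.leaf 2)) (.leaf 2))))) (.leaf 0))) (.node 1 (.leaf 0) (.node 0 (.node 2 (.node 1 (.leaf 0) (.leaf 2)) (.node 1 (.leaf 0) (.leaf 2))) (.node 2 (.node 1 (.leaf 0) (.leaf 2)) (.node 1 (.leaf 0) (.leaf 2))))))) (.leaf 0)))))))))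
    (bx3 10 687 916) = true :=
  (run_node 0 (bl := [(0, 512), (-687, 687), (-916, 0), (0, 1)]) (br := [(512, 1024), (-687, 687), (-916, 0), (0, 1)]) (by decide +kernel) (by decide +kernel)
    runB_0 (run_node 1 (bl := [(512, 1024), (-687, 0), (-916, 0), (0, 1)]) (br := [(512, 1024), (0, 687), (-916, 0), (0, 1)]) (by decide +kernel) (by decide +kernel)
    (run_node 2 (bl := [(512, 1024), (-687, 0), (-916, -458), (0, 1)]) (br := [(512, 1024), (-687, 0), (-458, 0), (0, 1)]) (by decide +kernel) (by decide +kernel)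
    (run_node 0 (bl := [(512, 768), (-687, 0), (-916, -458), (0, 1)]) (br := [(768, 1024), (-687, 0), (-916, -458), (0, 1)]) (by decide +kernel) (by decide +kernel)
    runB_1 (run_node 1 (bl := [(768, 1024), (-687, -344), (-916, -458), (0, 1)]) (br := [(768, 1024), (-344, 0), (-916, -458), (0, 1)]) (by decide +kernel) (by decide +kernel)
    (run_node 2 (bl := [(768, 1024), (-687, -344), (-916, -687), (0, 1)]) (br := [(768, 1024), (-687, -344), (-687, -458), (0, 1)]) (by decide +kernel) (by decide +kernel)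
    (run_node 0 (bl := [(768, 896), (-687, -344), (-916, -687), (0, 1)]) (br := [(896, 1024), (-687, -344), (-916, -687), (0, 1)]) (by decide +kernel) (by decide +kernel)
    runB_2 (run_node 2 (bl := [(896, 1024), (-687, -344), (-916, -802), (0, 1)]) (br := [(896, 1024), (-687, -344), (-802, -687), (0, 1)]) (by decide +kernel) (by decide +kernel)
    (run_node 1 (bl := [(896, 1024), (-687, -516), (-916, -802), (0, 1)]) (br := [(896, 1024), (-516, -344), (-916, -802), (0, 1)]) (by decide +kernel) (by decide +kernel)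
    (run_node 0 (bl := [(896, 960), (-687, -516), (-916, -802), (0, 1)]) (br := [(960, 1024), (-687, -516), (-916, -802), (0, 1)]) (by decide +kernel) (by decide +kernel)
    runB_3 runB_4) runB_5) runB_6)) runB_7) runB_8)) runB_9) (run_node 2 (bl := [(512, 1024), (0, 687), (-916, -458), (0, 1)]) (br := [(512, 1024), (0, 687), (-458, 0), (0, 1)]) (by decide +kernel) (by decide +kernel)
    (run_node 0 (bl := [(512, 768), (0, 687), (-916, -458), (0, 1)]) (br := [(768, 1024), (0, 687), (-916, -458), (0, 1)]) (by decide +kernel) (by decide +kernel)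
    runB_10 (run_node 1 (bl := [(768, 1024), (0, 343), (-916, -458), (0, 1)]) (br := [(768, 1024), (343, 687), (-916, -458), (0, 1)]) (by decide +kernel) (by decide +kernel)
    runB_11 (run_node 2 (bl := [(768, 1024), (343, 687), (-916, -687), (0, 1)]) (br := [(768, 1024), (343, 687), (-687, -458), (0, 1)]) (by decide +kernel) (by decide +kernel)
    runB_12 (run_node 1 (bl := [(768, 1024), (343, 515), (-687, -458), (0, 1)]) (br := [(768, 1024), (515, 687), (-687, -458), (0, 1)]) (by decide +kernel) (by decide +kernel)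
    (run_node 0 (bl := [(768, 896), (343, 515), (-687, -458), (0, 1)]) (br := [(896, 1024), (343, 515), (-687, -458), (0, 1)]) (by decide +kernel) (by decide +kernel)
    runB_13 (run_node 2 (bl := [(896, 1024), (343, 515), (-687, -573), (0, 1)]) (br := [(896, 1024), (343, 515), (-573, -458), (0, 1)]) (by decide +kernel) (by decide +kernel)
    runB_14 runB_15)) runB_16)))) (run_node 0 (bl := [(512, 768), (0, 687), (-458, 0), (0, 1)]) (br := [(768, 1024), (0, 687), (-458, 0), (0, 1)]) (by decide +kernel) (by decide +kernel)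
    (run_node 1 (bl := [(512, 768), (0, 343), (-458, 0), (0, 1)]) (br := [(512, 768), (343, 687), (-458, 0), (0, 1)]) (by decide +kernel) (by decide +kernel)
    runB_17 (run_node 2 (bl := [(512, 768), (343, 687), (-458, -229), (0, 1)]) (br := [(512, 768), (343, 687), (-229, 0), (0, 1)]) (by decide +kernel) (by decide +kernel)
    runB_18 (run_node 1 (bl := [(512, 768), (343, 515), (-229, 0), (0, 1)]) (br := [(512, 768), (515, 687), (-229, 0), (0, 1)]) (by decide +kernel) (by decide +kernel)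
    runB_19 (run_node 0 (bl := [(512, 640), (515, 687), (-229, 0), (0, 1)]) (br := [(640, 768), (515, 687), (-229, 0), (0, 1)]) (by decide +kernel) (by decide +kernel)
    runB_20 (run_node 2 (bl := [(640, 768), (515, 687), (-229, -115), (0, 1)]) (br := [(640, 768), (515, 687), (-115, 0), (0, 1)]) (by decide +kernel) (by decide +kernel)
    runB_21 (run_node 2 (bl := [(640, 768), (515, 687), (-115, -58), (0, 1)]) (br := [(640, 768), (515, 687), (-58, 0), (0, 1)]) (by decide +kernel) (by decide +kernel)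
    (run_node 1 (bl := [(640, 768), (515, 601), (-115, -58), (0, 1)]) (br := [(640, 768), (601, 687), (-115, -58), (0, 1)]) (by decide +kernel) (by decide +kernel)
    runB_22 (run_node 0 (bl := [(640, 704), (601, 687), (-115, -58), (0, 1)]) (br := [(704, 768), (601, 687), (-115, -58), (0, 1)]) (by decide +kernel) (by decide +kernel)
    runB_23 runB_24)) runB_25)))))) (run_node 1 (bl := [(768, 1024), (0, 343), (-458, 0), (0, 1)]) (br := [(768, 1024), (343, 687), (-458, 0), (0, 1)]) (by decide +kernel) (by decide +kernel)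
    runB_26 (run_node 2 (bl := [(768, 1024), (343, 687), (-458, -229), (0, 1)]) (br := [(768, 1024), (343, 687), (-229, 0), (0, 1)]) (by decide +kernel) (by decide +kernel)
    runB_27 (run_node 1 (bl := [(768, 1024), (343, 515), (-229, 0), (0, 1)]) (br := [(768, 1024), (515, 687), (-229, 0), (0, 1)]) (by decide +kernel) (by decide +kernel)
    runB_28 (run_node 0 (bl := [(768, 896), (515, 687), (-229, 0), (0, 1)]) (br := [(896, 1024), (515, 687), (-229, 0), (0, 1)]) (by decide +kernel) (by decide +kernel)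
    (run_node 2 (bl := [(768, 896), (515, 687), (-229, -115), (0, 1)]) (br := [(768, 896), (515, 687), (-115, 0), (0, 1)]) (by decide +kernel) (by decide +kernel)
    runB_29 runB_30) runB_31))))))))

theorem hZB : ∀ m ∈ ZB, 1 ≤ m.j := by decide
theorem hp0B : ∀ m ∈ p0B, 1 ≤ m.j := by decide

theorem Zpos (l : Fin 5 → ℝ) (y : Fin 4 → ℝ) (h : NAdm P.A0 l y) : 0 < Pol.ev (oneSub ZA ++ ZB) y :=
  zpos_of_run runZ (by norm_num) (by norm_num) (by norm_num) (by norm_num) (by norm_num)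
    (by norm_num) hZB h.tr h.sq h.cu h.z0 h.z1 h.v0 h.q0 h.q1 h.ap

theorem gnn (l : Fin 5 → ℝ) (y : Fin 4 → ℝ) (h : NAdm P.A0 l y) : 0 ≤ Pol.ev g y :=
  gnn_of_run rung le_rfl (by norm_num) (by norm_num) (by norm_num) (by norm_num)
    (by norm_num) h.tr h.sq h.cu h.z0 h.z1 h.v0 h.q0 h.q1 h.ap

theorem BJ (l : Fin 5 → ℝ) (y : Fin 4 → ℝ) (H : NAdm P.A0 l y) (h2 : y 2 = 1) (h3 : y 3 = 0)
    (k : Fin 5) (h : ℝ) (hh : 0 ≤ h) (hk : l k = -h) :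
    0 ≤ h * Pol.ev (oneSub ZA ++ ZB) y + Pol.ev (oneSub p0A ++ p0B) y - h * Pol.ev p1 y
      + h ^ 2 * Pol.ev p2 y - h ^ 3 * Pol.ev [] y - Pol.ev g y * (2 * h * (1 - y 0) + y 1) :=
  bj_of_run runB (by norm_num) (by norm_num) (by norm_num) (by norm_num) hp0B l y H.tr H.sq H.cu
    H.z0 H.z1 h2 h3 k h hh hk

theorem ncert (hS : CQ.CoverS' P D) : NCert 5 P.A0 P.Lam D :=
  ncert_ofQ (P := P) (by unfold CQ.nOK; decide) (by decide) (by decide) (by decide) (by decide)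
    Zpos gnn BJ hZB hp0B hS

/-- **the certificate from the cover of chart `S`** -/
theorem cert (hS : CQ.CoverS' P D) : Cert 5 (D.cert P.A0) P.Lam :=
  cert_of_ncert (ncert hS) (by norm_num)

end Crest.Agent.R097.V5
end

-- ▼ part R097C5/All
section

/-!
# Row 97: `Cert 5`
-/

set_option autoImplicit false

namespace Crest.Agent.R097C5

open Crest.Agent.R097 Crest.Agent.R097.KA

theorem cover5 : CoverS1 V5.P V5.D :=
  coverS1_of_charts (by simp [CQ.nOK, V5.P]) (by norm_num [CQ.Par.A0, V5.P])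
    (by norm_num [CQ.Par.A0, V5.P]) N5pp.all N5pm.all N5mp.all N5mm.all

theorem cert5 : ∃ (C : CertData) (Lam : ℝ), Cert 5 C Lam := ⟨_, _, V5.cert cover5⟩

end Crest.Agent.R097C5
end

-- ▼ part R097C5/Done

/-!
# Row 97: the final theorem
-/

set_option autoImplicit false
open MeasureTheory Metric Set Filter Topology
open scoped NNReal RealInnerProductSpace Gradient ContDiff Laplacian
open Crest.AnalysisR.PDE.OnePhase

namespace Crest.Agent.R097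

/-- one-homogeneous global minimizers in dimension `≤ 6` are flat -/
theorem S0128_done
    (d : ℕ) (hd1 : 1 ≤ d) (hd6 : d ≤ 6)
    (u : EuclideanSpace ℝ (Fin d) → ℝ) (G : EuclideanSpace ℝ (Fin d) → EuclideanSpace ℝ (Fin d))
    (hmin : IsGlobalMinimizer u G) (hhom : IsOneHomogeneous u)
    (hne : ¬ (u =ᵐ[volume] 0)) :
    ∃ e : EuclideanSpace ℝ (Fin d), ‖e‖ = 1 ∧ u =ᵐ[volume] fun x => max (inner ℝ x e) 0 :=
  S0128_of_cert45 Crest.Agent.R097C4.cert4 Crest.Agent.R097C5.cert5 d hd1 hd6 u G hmin hhom hne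

end Crest.Agent.R097
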